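import Crest.Agent.Lib.NoFixedPrice.BoundStmtW
import Crest.Agent.Lib.NoFixedPrice.CertSub
import Crest.Agent.Lib.NoFixedPrice.CertLeaf

/-!
# Row 191: `BoundStmt`

`boundStmt`: under the numerical conditions. `dOf g`: an admissible even `d` for the constant `g` of
the stage, `boundStmt_dOf`: the statement with `e = 1/10000`, `κ = 3`, `η = 1/100000`, `s = 1/1000`,
`c = 1/100`.
-/

set_option autoImplicit false
set_option linter.unusedSectionVars false
set_option linter.deprecated false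

namespace Crest.Agent.NoFixedPrice.MainLoop

open MeasureTheory FreeGroup Crest.Dynamics
open Crest.Agent.Lib.NoFixedPrice.Arc
open Crest.Agent.NoFixedPrice
open Crest.Agent.NoFixedPrice.FinalDrop

/-- **`BoundStmt`.** -/
theorem boundStmt {d : ℕ} [NeZero d] (hd : 2 ∣ d) {e κ η s c : ℝ} {g r m : ℕ} (hη : 0 ≤ η)
    (hr : 2 * g + 1 ≤ r) (hb : m * (r + 1) + 1 ≤ d) (hm : 0 < m)
    (hH : 3 * (2 * κ + η) ≤ (m : ℝ) / 2) (hdm : 576 * (d : ℝ) ≤ (m : ℝ) ^ 2)
    (hs : 2 * e + 2 * η + η / 2 ≤ s) (hc : 2 * s + η ≤ c) :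
    BoundStmt d e κ η s c g := by
  refine boundStmt_of_certs hd hη hr hb hm hH hdm hs hc ?_ ?_
  · intro O hO
    exact MGraph.Cert.removeCores hO.cert hO.folded wordAct_rel (aL_pair hd) hb hactL
      (fun p => O.K.measurable_deg_nat hactL p) (by omega) hO.tline hO.vert
  · intro O hO
    exact MGraph.Cert.dropLeaves hO.cert hO.folded (NeZero.pos d) wordAct_rel hactL
      (fun p => O.K.measurable_deg_nat hactL p) hO.tline hO.vert

/-- The block length for the constant `g`. -/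
def rOf (g : ℕ) : ℕ := 2 * g + 1

/-- The number of blocks for the constant `g`. -/
def mOf (g : ℕ) : ℕ := 1152 * (rOf g + 1)

/-- An admissible `d` for the constant `g`. -/
def dOf (g : ℕ) : ℕ := 2 * (mOf g * (rOf g + 1))

instance (g : ℕ) : NeZero (dOf g) := ⟨by
  unfold dOf mOf rOf
  positivity⟩

lemma two_dvd_dOf (g : ℕ) : 2 ∣ dOf g := ⟨_, rfl⟩

lemma eight_le_dOf (g : ℕ) : 8 ≤ dOf g := by
  unfold dOf mOf rOf
  nlinarith [Nat.zero_le g, Nat.zero_le (g * g)]

/-- **`BoundStmt`, with the constants.** -/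
theorem boundStmt_dOf (g : ℕ) :
    BoundStmt (dOf g) (1 / 10000) 3 (1 / 100000) (1 / 1000) (1 / 100) g := by
  have hm1 : 1152 ≤ mOf g := by
    unfold mOf rOf
    nlinarith [Nat.zero_le g]
  have hm1' : (1152 : ℝ) ≤ mOf g := by exact_mod_cast hm1
  refine boundStmt (r := rOf g) (m := mOf g) (two_dvd_dOf g) (by norm_num) le_rfl ?_ (by omega) ?_
    ?_ (by norm_num) (by norm_num)
  · have h0 : 0 < mOf g * (rOf g + 1) := by positivity
    unfold dOf
    omega
  · linarith
  · have h1 : ((dOf g : ℕ) : ℝ) = 2 * ((mOf g : ℝ) * ((rOf g : ℝ) + 1)) := by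
      unfold dOf
      push_cast
      ring
    have h2 : ((mOf g : ℕ) : ℝ) = 1152 * ((rOf g : ℝ) + 1) := by
      unfold mOf
      push_cast
      ring
    rw [h1]
    have h3 : 576 * (2 * ((mOf g : ℝ) * ((rOf g : ℝ) + 1))) = (mOf g : ℝ) * (1152 * ((rOf g : ℝ) + 1)) := by
      ring
    rw [h3, ← h2]
    exact le_of_eq (by ring)

end Crest.Agent.NoFixedPrice.MainLoop
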