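import Crest.Agent.Lib.NoFixedPrice.Bernoulli
import Crest.Prelude.Def_Cost

/-!
# The cheap action `Y` (row 191, S0291, module M1).

`Γ` is a group with generators `t`, `x i`, a height homomorphism `e : Γ → ℤ` with `e t = 1`,
`e (x i) = 0`, and `t⁻¹ x i t ∈ ⟨x⟩`.  On `Y = ZMod M × Bern(Γ)` with
`g • (j, u) = (j + e g, g • u)` the graphing "`t` everywhere, `x i` on the fibre over `0`" generates
the orbit relation and costs `1 + d / M`.
-/

set_option autoImplicit false
set_option linter.unusedSectionVars false

namespace Crest.Agent.NoFixedPrice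

open MeasureTheory Crest.Dynamics

section fibre

variable (M : ℕ) [NeZero M]

/-- The discrete σ-algebra on `ZMod M`. -/
@[reducible] def zmodMeasurable : MeasurableSpace (ZMod M) := ⊤

attribute [local instance] zmodMeasurable

instance : DiscreteMeasurableSpace (ZMod M) := ⟨fun _ => trivial⟩

/-- The uniform probability measure on `ZMod M`. -/
noncomputable def unifZ : Measure (ZMod M) := (M : ENNReal)⁻¹ • Measure.count

lemma unifZ_univ : unifZ M Set.univ = 1 := by
  have hM : (M : ENNReal) ≠ 0 := by exact_mod_cast NeZero.ne M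
  simp [unifZ, Measure.count_univ, ZMod.card, ENNReal.inv_mul_cancel hM]

instance : IsProbabilityMeasure (unifZ M) := ⟨unifZ_univ M⟩

lemma unifZ_singleton (j : ZMod M) : unifZ M {j} = (M : ENNReal)⁻¹ := by
  simp [unifZ]

lemma measurePreserving_unifZ_add (c : ZMod M) :
    MeasurePreserving (fun j : ZMod M => j + c) (unifZ M) (unifZ M) := by
  have h := measurePreserving_add_right (Measure.count : Measure (ZMod M)) c
  refine ⟨h.measurable, ?_⟩
  rw [unifZ, Measure.map_smul, h.map_eq]

end fibre

attribute [local instance] zmodMeasurable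

variable {Γ : Type} [Group Γ]

section action

variable (M : ℕ) [NeZero M] (e : Γ →* Multiplicative ℤ)

/-- The action on `ZMod M × Bern(Γ)`. -/
@[reducible] def cheapAction : MulAction Γ (ZMod M × (Γ → Bool)) where
  smul g y := (y.1 + ((Multiplicative.toAdd (e g) : ℤ) : ZMod M), g • y.2)
  one_smul y := by
    apply Prod.ext
    · show y.1 + ((Multiplicative.toAdd (e 1) : ℤ) : ZMod M) = y.1
      simp
    · show (1 : Γ) • y.2 = y.2
      simp
  mul_smul g h y := by
    apply Prod.ext
    · show y.1 + ((Multiplicative.toAdd (e (g * h)) : ℤ) : ZMod M) =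
        y.1 + ((Multiplicative.toAdd (e h) : ℤ) : ZMod M) + ((Multiplicative.toAdd (e g) : ℤ) : ZMod M)
      simp only [map_mul, toAdd_mul, Int.cast_add]
      ring
    · show (g * h) • y.2 = g • h • y.2
      exact mul_smul _ _ _

/-- The invariant measure on `ZMod M × Bern(Γ)`. -/
noncomputable def cheapMeasure : Measure (ZMod M × (Γ → Bool)) := (unifZ M).prod (bernMu Γ)

instance : IsProbabilityMeasure (cheapMeasure (Γ := Γ) M) := by
  unfold cheapMeasure; infer_instance

theorem cheap_freePMP [Infinite Γ] :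
    letI := cheapAction M e
    IsFreePMPAction Γ (ZMod M × (Γ → Bool)) (cheapMeasure M) := by
  let _ := cheapAction M e
  refine ⟨fun g => ?_, fun g hg => ?_⟩
  · exact (measurePreserving_unifZ_add M _).prod (measurePreserving_bern_smul g)
  · have hsub : {y : ZMod M × (Γ → Bool) | g • y = y} ⊆ Set.univ ×ˢ {u : Γ → Bool | g • u = u} := by
      intro y hy
      exact ⟨trivial, congrArg Prod.snd hy⟩
    refine measure_mono_null hsub ?_
    rw [cheapMeasure, Measure.prod_prod, bern_essentially_free g hg]
    simp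

end action

section graphing

variable {d : ℕ} (M : ℕ) [NeZero M] (e : Γ →* Multiplicative ℤ) (x : Fin d → Γ) (t : Γ)

/-- The graphing: `t` everywhere, each `x i` on the fibre over `0`. -/
def cheapGraphing (n : ℕ) : Γ × Set (ZMod M × (Γ → Bool)) :=
  match n with
  | 0 => (t, Set.univ)
  | k + 1 => if h : k < d then (x ⟨k, h⟩, {0} ×ˢ Set.univ) else (1, ∅)

lemma cheapGraphing_cost :
    graphingCost (cheapMeasure (Γ := Γ) M) (cheapGraphing M x t) = 1 + (d : ENNReal) / M := by
  have hfibre : cheapMeasure (Γ := Γ) M ({0} ×ˢ Set.univ) = (M : ENNReal)⁻¹ := by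
    rw [cheapMeasure, Measure.prod_prod, unifZ_singleton]
    simp
  unfold graphingCost
  rw [tsum_eq_zero_add' ENNReal.summable]
  have h0 : cheapMeasure (Γ := Γ) M (cheapGraphing M x t 0).2 = 1 := by
    simp [cheapGraphing]
  rw [h0]
  congr 1
  have h1 : ∀ k : ℕ, cheapMeasure (Γ := Γ) M (cheapGraphing M x t (k + 1)).2 =
      if k < d then (M : ENNReal)⁻¹ else 0 := by
    intro k
    by_cases h : k < d
    · simp only [cheapGraphing, h, dif_pos, if_true]
      exact hfibre
    · simp [cheapGraphing, h]
  simp_rw [h1]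
  rw [tsum_eq_sum (s := Finset.range d)]
  · rw [Finset.sum_congr rfl (fun k hk => if_pos (Finset.mem_range.mp hk))]
    simp [div_eq_mul_inv]
  · intro k hk
    simp [Finset.mem_range.not.mp hk]

variable {M e x t}

theorem cheapGraphing_generates
    (h_t : e t = Multiplicative.ofAdd 1) (h_x : ∀ i, e (x i) = 1)
    (h_gen : Subgroup.closure (Set.range x ∪ {t}) = ⊤)
    (h_conj : ∀ i, t⁻¹ * x i * t ∈ Subgroup.closure (Set.range x)) :
    letI := cheapAction M e
    Generates (Γ := Γ) (cheapMeasure M) (cheapGraphing M x t) := by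
  let _ := cheapAction M e
  refine ⟨fun n => ?_, ∅, measure_empty, fun y _ g => ?_⟩
  · cases n with
    | zero => exact MeasurableSet.univ
    | succ k =>
      by_cases h : k < d
      · simp only [cheapGraphing, h, dif_pos]
        exact (MeasurableSet.of_discrete).prod MeasurableSet.univ
      · simp only [cheapGraphing, h, dif_neg, not_false_eq_true]
        exact MeasurableSet.empty
  set R := Relation.EqvGen (GraphingStep (cheapGraphing M x t)) with hR
  have hrefl : ∀ y, R y y := Relation.EqvGen.refl
  have hsymm : ∀ {y z}, R y z → R z y := fun h => Relation.EqvGen.symm _ _ h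
  have htrans : ∀ {y z w}, R y z → R z w → R y w := fun h h' => Relation.EqvGen.trans _ _ _ h h'
  -- the subgroup of elements joined everywhere
  let H : Subgroup Γ :=
    { carrier := {g | ∀ y, R y (g • y)}
      one_mem' := fun y => by simpa using hrefl y
      mul_mem' := fun {a b} ha hb y => by
        have := htrans (hb y) (ha (b • y))
        rwa [← mul_smul] at this
      inv_mem' := fun {a} ha y => by
        have := ha (a⁻¹ • y)
        rw [smul_inv_smul] at this
        exact hsymm this }
  have ht : t ∈ H := fun y => Relation.EqvGen.rel _ _ ⟨0, trivial, rfl⟩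
  have htp : ∀ n : ℕ, t ^ n ∈ H := fun n => H.pow_mem ht n
  let K := Subgroup.closure (Set.range x)
  -- elements of `K` have height zero
  have hKh : ∀ k ∈ K, e k = 1 := by
    intro k hk
    induction hk using Subgroup.closure_induction with
    | mem a ha =>
      obtain ⟨i, rfl⟩ := ha
      exact h_x i
    | one => simp
    | mul a b _ _ ha hb => simp [ha, hb]
    | inv a _ ha => simp [ha]
  have hfib : ∀ k ∈ K, ∀ z : ZMod M × (Γ → Bool), z.1 = 0 → (k • z).1 = 0 := by
    intro k hk z hz
    show z.1 + ((Multiplicative.toAdd (e k) : ℤ) : ZMod M) = 0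
    rw [hKh k hk, hz]
    simp
  have hK : ∀ k ∈ K, ∀ z : ZMod M × (Γ → Bool), z.1 = 0 → R z (k • z) := by
    intro k hk
    induction hk using Subgroup.closure_induction with
    | mem a ha =>
      obtain ⟨i, rfl⟩ := ha
      intro z hz
      refine Relation.EqvGen.rel _ _ ⟨i.1 + 1, ?_, ?_⟩
      · simp only [cheapGraphing, i.2, dif_pos]
        exact ⟨hz, trivial⟩
      · simp only [cheapGraphing, i.2, dif_pos]
    | one => intro z _; simpa using hrefl z
    | mul a b hka hkb ha hb =>
      intro z hz
      have := htrans (hb z hz) (ha (b • z) (hfib b hkb z hz))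
      rwa [← mul_smul] at this
    | inv a hka ha =>
      intro z hz
      have h1 : (a⁻¹ • z).1 = 0 := hfib _ (K.inv_mem hka) z hz
      have := ha (a⁻¹ • z) h1
      rw [smul_inv_smul] at this
      exact hsymm this
  -- conjugation stays in `K`
  have hconjK : ∀ k ∈ K, t⁻¹ * k * t ∈ K := by
    intro k hk
    induction hk using Subgroup.closure_induction with
    | mem a ha =>
      obtain ⟨i, rfl⟩ := ha
      exact h_conj i
    | one => simp [K.one_mem]
    | mul a b _ _ ha hb =>
      have : t⁻¹ * (a * b) * t = (t⁻¹ * a * t) * (t⁻¹ * b * t) := by group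
      rw [this]
      exact K.mul_mem ha hb
    | inv a _ ha =>
      have : t⁻¹ * a⁻¹ * t = (t⁻¹ * a * t)⁻¹ := by group
      rw [this]
      exact K.inv_mem ha
  have hconjP : ∀ (n : ℕ), ∀ k ∈ K, (t ^ n)⁻¹ * k * t ^ n ∈ K := by
    intro n
    induction n with
    | zero => intro k hk; simpa using hk
    | succ n ih =>
      intro k hk
      have := hconjK _ (ih k hk)
      have h2 : (t ^ (n + 1))⁻¹ * k * t ^ (n + 1) = t⁻¹ * ((t ^ n)⁻¹ * k * t ^ n) * t := by
        rw [pow_succ]
        group
      rw [h2]
      exact this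
  -- letters are in `H`
  have hx : ∀ i, x i ∈ H := by
    intro i z
    -- take a natural representative of the fibre coordinate
    obtain ⟨n, hn⟩ : ∃ n : ℕ, ((n : ℕ) : ZMod M) = z.1 := ⟨z.1.val, by simp⟩
    set w : Γ := (t ^ n)⁻¹ with hw
    have hz0 : (w • z).1 = 0 := by
      show z.1 + ((Multiplicative.toAdd (e w) : ℤ) : ZMod M) = 0
      have : Multiplicative.toAdd (e w) = -(n : ℤ) := by
        rw [hw, map_inv, map_pow, h_t]
        simp
      rw [this, ← hn]
      simp
    have h1 : R z (w • z) := H.inv_mem (htp n) z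
    have hmem : w * x i * t ^ n ∈ K := hconjP n _ (Subgroup.subset_closure ⟨i, rfl⟩)
    have h2 : R (w • z) ((w * x i * t ^ n) • w • z) := hK _ hmem _ hz0
    have h3 : (w * x i * t ^ n) • w • z = w • x i • z := by
      rw [← mul_smul, ← mul_smul]
      congr 1
      rw [hw]
      group
    rw [h3] at h2
    have h4 : R (w • x i • z) (x i • z) := by
      have := htp n (w • x i • z)
      rw [hw, smul_inv_smul] at this
      rw [← hw] at this
      exact this
    exact htrans h1 (htrans h2 h4)
  have hall : ∀ g : Γ, g ∈ H := by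
    intro g
    have hg : g ∈ Subgroup.closure (Set.range x ∪ {t}) := by rw [h_gen]; trivial
    have hle : Subgroup.closure (Set.range x ∪ {t}) ≤ H := by
      rw [Subgroup.closure_le]
      rintro a (⟨i, rfl⟩ | rfl)
      · exact hx i
      · exact ht
    exact hle hg
  exact hall g y

end graphing

/-- **Module M1**: the upper bound half of S0291, abstract in the group. -/
theorem exists_cheap_action [Countable Γ] [Infinite Γ] {d : ℕ} (x : Fin d → Γ) (t : Γ)
    (e : Γ →* Multiplicative ℤ)
    (h_t : e t = Multiplicative.ofAdd 1) (h_x : ∀ i, e (x i) = 1)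
    (h_gen : Subgroup.closure (Set.range x ∪ {t}) = ⊤)
    (h_conj : ∀ i, t⁻¹ * x i * t ∈ Subgroup.closure (Set.range x)) :
    ∀ M : ℕ, 100 < M →
      ∃ (Y : Type) (_ : MeasurableSpace Y) (_ : StandardBorelSpace Y) (ν : Measure Y)
        (_ : IsProbabilityMeasure ν) (_ : MulAction Γ Y),
        IsFreePMPAction Γ Y ν ∧ actionCost Γ Y ν ≤ 1 + 99 / (M : ENNReal) := by
  intro M hM
  -- the number of fibres
  have hM0 : (M : ENNReal) ≠ 0 := by
    have : M ≠ 0 := by omega
    exact_mod_cast this
  let M' : ℕ := (d + 1) * M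
  have : NeZero M' := ⟨by simp only [M']; positivity⟩
  let act := cheapAction (Γ := Γ) M' e
  refine ⟨ZMod M' × (Γ → Bool), inferInstance, inferInstance, cheapMeasure M', inferInstance, act,
    cheap_freePMP M' e, ?_⟩
  have hgen := cheapGraphing_generates (M := M') (e := e) (x := x) (t := t) h_t h_x h_gen h_conj
  have hle : actionCost Γ (ZMod M' × (Γ → Bool)) (cheapMeasure M') ≤
      graphingCost (cheapMeasure (Γ := Γ) M') (cheapGraphing M' x t) :=
    sInf_le ⟨_, hgen, rfl⟩
  refine hle.trans ?_
  rw [cheapGraphing_cost]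
  gcongr 1 + ?_
  -- `d / ((d+1) M) ≤ 99 / M`
  have hd1 : ((d : ENNReal) + 1) ≠ 0 := by simp
  have hd2 : ((d : ENNReal) + 1) ≠ ⊤ := by simp
  have hMtop : (M : ENNReal) ≠ ⊤ := ENNReal.natCast_ne_top M
  have hM' : ((M' : ℕ) : ENNReal) = ((d : ENNReal) + 1) * M := by
    simp [M']
  rw [hM']
  have h1 : (d : ENNReal) / (((d : ENNReal) + 1) * M) ≤ (M : ENNReal)⁻¹ := by
    rw [ENNReal.div_le_iff (mul_ne_zero hd1 hM0) (ENNReal.mul_ne_top hd2 hMtop)]
    have h2 : (M : ENNReal)⁻¹ * (((d : ENNReal) + 1) * M) = (d : ENNReal) + 1 := by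
      rw [mul_comm ((d : ENNReal) + 1), ← mul_assoc, ENNReal.inv_mul_cancel hM0 hMtop, one_mul]
    rw [h2]
    exact le_self_add
  refine h1.trans ?_
  rw [ENNReal.div_eq_inv_mul]
  calc (M : ENNReal)⁻¹ = (M : ENNReal)⁻¹ * 1 := (mul_one _).symm
    _ ≤ (M : ENNReal)⁻¹ * 99 := by gcongr; norm_num

end Crest.Agent.NoFixedPrice
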