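import Mathlib

/-!
# Row 191 (no fixed price): the measured fold closure engine and the Pi lemma

Raw data: `X` a measurable space with a finite measure `μ`, finite types `L` (letters) and `P`
(sheets), `act : L → X ≃ᵐ X` measure preserving, `Ed : L → P → P → Set X`: `x ∈ Ed s p q` is an edge
`(x, p) -s-> (act s x, q)`, and `Tp ⊆ Ed` the designated tops.  A relation state is a family
`ρ : X → Setoid P`.  Sheets not carrying a vertex at `x` are simply isolated singletons.

* `merge`: add one pair to a setoid; `numCls_le_merge_succ`: the number of classes drops by ≤ 1.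
* `exists_closure`: the fair limit of one-rule rounds: measurable `ρ ≥ ρ₀`, alive `A ⊆ Ed \ Tp`,
  `mass A - Vol ρ ≤ mass (Ed \ Tp) - Vol ρ₀`, no rule applicable, each edge parallel to an edge of
  `A ∪ Tp`, and `ρ` is below each fold-closed family above `ρ₀`.
* `exists_fold`: the least fold closed measurable family above `ρ₀`.
* `IsClosure.foldClosed_of_cells`: with heights, tops with legs and bottoms one height lower, the
  closure is fold closed on all edges.
* `pi_fold`: for the fold `ρ`, `E' - T' - Vol ρ ≤ mass Ed - mass Tp - Vol ρ₀`, in any depth, by the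
  cyclic `M`-fold cover `cov M S t`, where the tops at level `0` are not designated.
-/

set_option autoImplicit false

open MeasureTheory Set Filter Topology
open scoped ENNReal

namespace Crest.Agent.NoFixedPrice.FoldCore

section Merge

variable {P : Type*}

/-- Add the pair `(u, v)` to a setoid. -/
@[instance_reducible]
def merge (s : Setoid P) (u v : P) : Setoid P where
  r a b := s a b ∨ (s a u ∧ s v b) ∨ (s a v ∧ s u b)
  iseqv := by
    refine ⟨fun a => Or.inl (s.refl' a), ?_, ?_⟩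
    · rintro a b (h | ⟨h1, h2⟩ | ⟨h1, h2⟩)
      · exact Or.inl (s.symm' h)
      · exact Or.inr (Or.inr ⟨s.symm' h2, s.symm' h1⟩)
      · exact Or.inr (Or.inl ⟨s.symm' h2, s.symm' h1⟩)
    · rintro a b c (h | ⟨h1, h2⟩ | ⟨h1, h2⟩) (k | ⟨k1, k2⟩ | ⟨k1, k2⟩)
      · exact Or.inl (s.trans' h k)
      · exact Or.inr (Or.inl ⟨s.trans' h k1, k2⟩)
      · exact Or.inr (Or.inr ⟨s.trans' h k1, k2⟩)
      · exact Or.inr (Or.inl ⟨h1, s.trans' h2 k⟩)
      · exact Or.inl (s.trans' h1 (s.trans' (s.symm' (s.trans' h2 k1)) k2))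
      · exact Or.inl (s.trans' h1 k2)
      · exact Or.inr (Or.inr ⟨h1, s.trans' h2 k⟩)
      · exact Or.inl (s.trans' h1 k2)
      · exact Or.inl (s.trans' h1 (s.trans' (s.symm' (s.trans' h2 k1)) k2))

theorem merge_apply (s : Setoid P) (u v a b : P) :
    merge s u v a b ↔ s a b ∨ (s a u ∧ s v b) ∨ (s a v ∧ s u b) := Iff.rfl

theorem le_merge (s : Setoid P) (u v : P) : s ≤ merge s u v := fun _ _ h => Or.inl h

theorem merge_rel (s : Setoid P) (u v : P) : merge s u v u v :=
  Or.inr (Or.inl ⟨s.refl' u, s.refl' v⟩)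

/-- `merge s u v` is below each setoid above `s` relating `u` and `v`. -/
theorem merge_le {s t : Setoid P} {u v : P} (hst : s ≤ t) (huv : t u v) : merge s u v ≤ t := by
  rintro a b (h | ⟨h1, h2⟩ | ⟨h1, h2⟩)
  · exact hst h
  · exact t.trans' (hst h1) (t.trans' huv (hst h2))
  · exact t.trans' (hst h1) (t.trans' (t.symm' huv) (hst h2))

/-- The number of classes of a setoid. -/
noncomputable def numCls (s : Setoid P) : ℕ := Nat.card (Quotient s)

theorem numCls_le_merge_succ [Finite P] (s : Setoid P) (u v : P) :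
    numCls s ≤ numCls (merge s u v) + 1 := by
  classical
  unfold numCls
  rw [← Finite.card_option]
  have hfin : Finite (Quotient (merge s u v)) := Quotient.finite _
  have hfin' : Finite (Quotient s) := Quotient.finite _
  let φ : Quotient s → Quotient (merge s u v) :=
    Quotient.map' id (fun a b h => le_merge s u v h)
  let b : Quotient s := Quotient.mk s v
  refine Nat.card_le_card_of_injective (fun x => if x = b then none else some (φ x)) ?_
  intro x y hxy
  by_cases hx : x = b
  · by_cases hy : y = b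
    · rw [hx, hy]
    · simp [hx, hy] at hxy
  · by_cases hy : y = b
    · simp [hx, hy] at hxy
    · simp only [hx, hy, if_false, Option.some.injEq] at hxy
      induction x using Quotient.inductionOn with
      | h a =>
        induction y using Quotient.inductionOn with
        | h c =>
          have h : merge s u v a c := Quotient.exact hxy
          rcases h with h | ⟨h1, h2⟩ | ⟨h1, h2⟩
          · exact Quotient.sound h
          · exact absurd (Quotient.sound (s := s) (s.symm' h2)) hy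
          · exact absurd (Quotient.sound (s := s) h1) hx

theorem numCls_le [Fintype P] (s : Setoid P) : numCls s ≤ Fintype.card P := by
  unfold numCls
  rw [← Nat.card_eq_fintype_card]
  exact Nat.card_le_card_of_surjective _ Quotient.mk_surjective

end Merge


section Measure

variable {X : Type*} [MeasurableSpace X] {P : Type*}

/-- A measurable family of relations on the finite sheet set. -/
def MeasRel (ρ : X → Setoid P) : Prop := ∀ p q, MeasurableSet {x | ρ x p q}

theorem MeasRel.measurableSet_eq {ρ : X → Setoid P} [Countable P] (h : MeasRel ρ) (s : Setoid P) :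
    MeasurableSet {x | ρ x = s} := by
  have : {x | ρ x = s} = ⋂ p, ⋂ q, {x | ρ x p q ↔ s p q} := by
    ext x
    simp only [mem_ofPred_eq, mem_iInter, Setoid.ext_iff]
  rw [this]
  refine MeasurableSet.iInter fun p => MeasurableSet.iInter fun q => ?_
  by_cases hs : s p q
  · have : {x | ρ x p q ↔ s p q} = {x | ρ x p q} := by ext x; simp [hs]
    rw [this]; exact h p q
  · have : {x | ρ x p q ↔ s p q} = {x | ρ x p q}ᶜ := by ext x; simp [hs]
    rw [this]; exact (h p q).compl

theorem finite_setoid [Finite P] : Finite (Setoid P) :=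
  Finite.of_injective (fun s : Setoid P => (⇑s : P → P → Prop)) (fun _ _ h => Setoid.eq_iff_rel_eq.2 h)

theorem MeasRel.measurable_comp [Finite P] {ρ : X → Setoid P} (h : MeasRel ρ) {β : Type*}
    [MeasurableSpace β] (f : Setoid P → β) : Measurable fun x => f (ρ x) := by
  intro B _
  have hfin : Finite (Setoid P) := finite_setoid
  have : (fun x => f (ρ x)) ⁻¹' B = ⋃ s : {s : Setoid P // f s ∈ B}, {x | ρ x = s.1} := by
    ext x
    simp only [mem_preimage, mem_iUnion, mem_ofPred_eq, Subtype.exists, exists_prop]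
    exact ⟨fun hx => ⟨ρ x, hx, rfl⟩, fun ⟨s, hs, hxs⟩ => hxs ▸ hs⟩
  rw [this]
  exact MeasurableSet.iUnion fun s => h.measurableSet_eq s.1

variable (μ : Measure X)

/-- The total mass of classes of a relation family. -/
noncomputable def Vol (ρ : X → Setoid P) : ℝ := ∫ x, (numCls (ρ x) : ℝ) ∂μ

theorem integrable_numCls [Fintype P] [IsFiniteMeasure μ] {ρ : X → Setoid P} (h : MeasRel ρ) :
    Integrable (fun x => (numCls (ρ x) : ℝ)) μ := by
  refine Integrable.of_bound (h.measurable_comp (fun s => (numCls s : ℝ))).aestronglyMeasurable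
    (Fintype.card P : ℝ) (ae_of_all _ fun x => ?_)
  rw [Real.norm_of_nonneg (Nat.cast_nonneg _)]
  exact_mod_cast numCls_le (ρ x)

open Classical in
/-- Merge `u, v` on the fibres over `D`. -/
noncomputable def mergeOn (ρ : X → Setoid P) (D : Set X) (u v : P) (y : X) : Setoid P :=
  if y ∈ D then merge (ρ y) u v else ρ y

omit [MeasurableSpace X] in
theorem mergeOn_of_mem (ρ : X → Setoid P) {D : Set X} (u v : P) {y : X} (hy : y ∈ D) :
    mergeOn ρ D u v y = merge (ρ y) u v := if_pos hy

omit [MeasurableSpace X] in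
theorem mergeOn_of_notMem (ρ : X → Setoid P) {D : Set X} (u v : P) {y : X} (hy : y ∉ D) :
    mergeOn ρ D u v y = ρ y := if_neg hy

omit [MeasurableSpace X] in
theorem mergeOn_apply (ρ : X → Setoid P) (D : Set X) (u v : P) (y : X) (a b : P) :
    mergeOn ρ D u v y a b ↔ (y ∈ D ∧ merge (ρ y) u v a b) ∨ (y ∉ D ∧ ρ y a b) := by
  by_cases hy : y ∈ D
  · rw [mergeOn_of_mem ρ u v hy]; simp [hy]
  · rw [mergeOn_of_notMem ρ u v hy]; simp [hy]

omit [MeasurableSpace X] in
theorem le_mergeOn (ρ : X → Setoid P) (D : Set X) (u v : P) (y : X) : ρ y ≤ mergeOn ρ D u v y := by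
  by_cases hy : y ∈ D
  · rw [mergeOn_of_mem ρ u v hy]; exact le_merge _ _ _
  · rw [mergeOn_of_notMem ρ u v hy]

omit [MeasurableSpace X] in
theorem mergeOn_rel {ρ : X → Setoid P} {D : Set X} (u v : P) {y : X} (hy : y ∈ D) :
    mergeOn ρ D u v y u v := by
  rw [mergeOn_of_mem ρ u v hy]
  exact merge_rel _ _ _

theorem MeasRel.mergeOn {ρ : X → Setoid P} (h : MeasRel ρ) {D : Set X} (hD : MeasurableSet D)
    (u v : P) : MeasRel (mergeOn ρ D u v) := by
  intro a b
  have : {x | FoldCore.mergeOn ρ D u v x a b} =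
      (D ∩ ({x | ρ x a b} ∪ ({x | ρ x a u} ∩ {x | ρ x v b}) ∪ ({x | ρ x a v} ∩ {x | ρ x u b}))) ∪
        (Dᶜ ∩ {x | ρ x a b}) := by
    ext x
    simp only [mem_ofPred_eq, mergeOn_apply, merge_apply, mem_union, mem_inter_iff, mem_compl_iff]
    tauto
  rw [this]
  exact (hD.inter (((h a b).union ((h a u).inter (h v b))).union ((h a v).inter (h u b)))).union
    (hD.compl.inter (h a b))

theorem vol_le_mergeOn [Fintype P] [IsFiniteMeasure μ] {ρ : X → Setoid P} (h : MeasRel ρ) {D : Set X}
    (hD : MeasurableSet D) (u v : P) :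
    Vol μ ρ ≤ Vol μ (mergeOn ρ D u v) + μ.real D := by
  have h1 := integrable_numCls μ h
  have h2 := integrable_numCls μ (h.mergeOn hD u v)
  have h3 : Integrable (D.indicator (1 : X → ℝ)) μ := (integrable_const (1 : ℝ)).indicator hD
  unfold Vol
  rw [← integral_indicator_one hD, ← integral_add h2 h3]
  refine integral_mono h1 (h2.add h3) fun y => ?_
  by_cases hy : y ∈ D
  · have := numCls_le_merge_succ (ρ y) u v
    simp only [mergeOn_of_mem ρ u v hy, hy, indicator_of_mem, Pi.one_apply]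
    exact_mod_cast this
  · simp [mergeOn_of_notMem ρ u v hy, hy]

end Measure


section System

variable {X L P : Type*} [MeasurableSpace X]

/-- The raw data: letters act on `X`, `x ∈ Ed s p q` is an edge `(x, p) -s-> (act s x, q)`, and
`Tp ⊆ Ed` are the designated tops. -/
structure Sys (X L P : Type*) [MeasurableSpace X] where
  act : L → X ≃ᵐ X
  Ed : L → P → P → Set X
  Tp : L → P → P → Set X

/-- Regularity of the raw data. -/
structure Sys.Good (S : Sys X L P) (μ : Measure X) : Prop where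
  mp : ∀ s, MeasurePreserving (S.act s) μ μ
  measEd : ∀ s p q, MeasurableSet (S.Ed s p q)
  measTp : ∀ s p q, MeasurableSet (S.Tp s p q)
  tp_sub : ∀ s p q, S.Tp s p q ⊆ S.Ed s p q

/-- A family of relations is fold closed on the edges of `S`. -/
def Sys.FoldClosed (S : Sys X L P) (τ : X → Setoid P) : Prop :=
  ∀ x s p q p' q', x ∈ S.Ed s p q → x ∈ S.Ed s p' q' → (τ x p p' ↔ τ (S.act s x) q q')

/-- Closure state: relation family and alive edges. -/
structure St (X L P : Type*) where
  ρ : X → Setoid P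
  A : L → P → P → Set X

/-- Total mass of a family of edge sets. -/
noncomputable def mass [Fintype L] [Fintype P] (μ : Measure X) (A : L → P → P → Set X) : ℝ :=
  ∑ i : L × P × P, μ.real (A i.1 i.2.1 i.2.2)

/-- Delete the edge `(s, p, q)` over `D`. -/
def del (A : L → P → P → Set X) (D : Set X) (s : L) (p q : P) : L → P → P → Set X :=
  fun s0 p0 q0 => {x | x ∈ A s0 p0 q0 ∧ ¬((s0, p0, q0) = (s, p, q) ∧ x ∈ D)}

omit [MeasurableSpace X] in
theorem del_sub (A : L → P → P → Set X) (D : Set X) (s : L) (p q : P) (s0 : L) (p0 q0 : P) :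
    del A D s p q s0 p0 q0 ⊆ A s0 p0 q0 := fun _ h => h.1

theorem measurable_del {A : L → P → P → Set X} (hA : ∀ s p q, MeasurableSet (A s p q)) {D : Set X}
    (hD : MeasurableSet D) (s : L) (p q : P) (s0 : L) (p0 q0 : P) :
    MeasurableSet (del A D s p q s0 p0 q0) := by
  by_cases h : (s0, p0, q0) = (s, p, q)
  · have : del A D s p q s0 p0 q0 = A s0 p0 q0 \ D := by
      ext x
      simp [del, h]
    rw [this]
    exact (hA _ _ _).diff hD
  · have : del A D s p q s0 p0 q0 = A s0 p0 q0 := by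
      ext x
      simp [del, h]
    rw [this]
    exact hA _ _ _

theorem mass_del [Fintype L] [Fintype P] (μ : Measure X) [IsFiniteMeasure μ]
    {A : L → P → P → Set X} {D : Set X}
    (hD : MeasurableSet D) {s : L} {p q : P} (hsub : D ⊆ A s p q) :
    mass μ (del A D s p q) = mass μ A - μ.real D := by
  classical
  unfold mass
  have key : ∀ i : L × P × P, μ.real (del A D s p q i.1 i.2.1 i.2.2) =
      μ.real (A i.1 i.2.1 i.2.2) - if i = (s, p, q) then μ.real D else 0 := by
    rintro ⟨s0, p0, q0⟩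
    by_cases h : (s0, p0, q0) = (s, p, q)
    · have h' := h
      simp only [Prod.mk.injEq] at h'
      obtain ⟨rfl, rfl, rfl⟩ := h'
      have : del A D s0 p0 q0 s0 p0 q0 = A s0 p0 q0 \ D := by
        ext x
        simp [del]
      simp only [this, if_true]
      exact measureReal_sdiff hsub hD
    · have : del A D s p q s0 p0 q0 = A s0 p0 q0 := by
        ext x
        simp [del, h]
      simp [this, h]
  simp_rw [key]
  rw [Finset.sum_sub_distrib]
  simp

/-- Forward rule set: `e = (s,p,q)` alive, `e' = (s,p',q')` alive or top, same source class. -/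
def ruleF (S : Sys X L P) (σ : St X L P) (s : L) (p q p' q' : P) : Set X :=
  {x | (p, q) ≠ (p', q') ∧ x ∈ σ.A s p q ∧ (x ∈ σ.A s p' q' ∨ x ∈ S.Tp s p' q') ∧ σ.ρ x p p'}

/-- Backward rule set: `e = (s,p,q)` alive, `e' = (s,p',q')` alive or top, same target class. -/
def ruleB (S : Sys X L P) (σ : St X L P) (s : L) (p q p' q' : P) : Set X :=
  {x | (p, q) ≠ (p', q') ∧ x ∈ σ.A s p q ∧ (x ∈ σ.A s p' q' ∨ x ∈ S.Tp s p' q') ∧
    σ.ρ (S.act s x) q q'}

/-- One forward round. -/
noncomputable def stepF (S : Sys X L P) (σ : St X L P) (s : L) (p q p' q' : P) : St X L P where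
  ρ := mergeOn σ.ρ ((S.act s).symm ⁻¹' ruleF S σ s p q p' q') q q'
  A := del σ.A (ruleF S σ s p q p' q') s p q

/-- One backward round. -/
noncomputable def stepB (S : Sys X L P) (σ : St X L P) (s : L) (p q p' q' : P) : St X L P where
  ρ := mergeOn σ.ρ (ruleB S σ s p q p' q') p p'
  A := del σ.A (ruleB S σ s p q p' q') s p q

/-- A rule instance. -/
abbrev Inst (L P : Type*) := Bool × L × P × P × P × P

/-- One round for an optional rule instance. -/
noncomputable def step (S : Sys X L P) (σ : St X L P) : Option (Inst L P) → St X L P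
  | none => σ
  | some (true, s, p, q, p', q') => stepF S σ s p q p' q'
  | some (false, s, p, q, p', q') => stepB S σ s p q p' q'

/-- Invariants of a state. -/
structure St.Inv (S : Sys X L P) (σ : St X L P) : Prop where
  measρ : MeasRel σ.ρ
  measA : ∀ s p q, MeasurableSet (σ.A s p q)
  subEd : ∀ s p q, σ.A s p q ⊆ S.Ed s p q
  disjTp : ∀ s p q, Disjoint (σ.A s p q) (S.Tp s p q)

theorem measurable_ruleF {S : Sys X L P} (hS : ∀ s p q, MeasurableSet (S.Tp s p q)) {σ : St X L P}
    (h : σ.Inv S) (s : L) (p q p' q' : P) : MeasurableSet (ruleF S σ s p q p' q') := by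
  by_cases hne : (p, q) = (p', q')
  · have : ruleF S σ s p q p' q' = ∅ := by
      ext x
      simp [ruleF, hne]
    rw [this]
    exact MeasurableSet.empty
  · have : ruleF S σ s p q p' q' =
        σ.A s p q ∩ ((σ.A s p' q' ∪ S.Tp s p' q') ∩ {x | σ.ρ x p p'}) := by
      ext x
      simp only [ruleF, mem_ofPred_eq, mem_inter_iff, mem_union]
      tauto
    rw [this]
    exact (h.measA _ _ _).inter (((h.measA _ _ _).union (hS _ _ _)).inter (h.measρ _ _))

theorem measurable_ruleB {S : Sys X L P} (hS : ∀ s p q, MeasurableSet (S.Tp s p q)) {σ : St X L P}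
    (h : σ.Inv S) (s : L) (p q p' q' : P) : MeasurableSet (ruleB S σ s p q p' q') := by
  by_cases hne : (p, q) = (p', q')
  · have : ruleB S σ s p q p' q' = ∅ := by
      ext x
      simp [ruleB, hne]
    rw [this]
    exact MeasurableSet.empty
  · have : ruleB S σ s p q p' q' =
        σ.A s p q ∩ ((σ.A s p' q' ∪ S.Tp s p' q') ∩ (S.act s) ⁻¹' {x | σ.ρ x q q'}) := by
      ext x
      simp only [ruleB, mem_ofPred_eq, mem_inter_iff, mem_union, mem_preimage]
      tauto
    rw [this]
    exact (h.measA _ _ _).inter (((h.measA _ _ _).union (hS _ _ _)).inter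
      ((S.act s).measurable (h.measρ _ _)))

theorem St.Inv.del {S : Sys X L P} {σ : St X L P} (h : σ.Inv S) {D : Set X} (hD : MeasurableSet D)
    {ρ' : X → Setoid P} (hρ' : MeasRel ρ') (s : L) (p q : P) :
    St.Inv S ⟨ρ', FoldCore.del σ.A D s p q⟩ where
  measρ := hρ'
  measA := measurable_del h.measA hD s p q
  subEd s0 p0 q0 := (del_sub _ _ _ _ _ _ _ _).trans (h.subEd s0 p0 q0)
  disjTp s0 p0 q0 := (h.disjTp s0 p0 q0).mono_left (del_sub _ _ _ _ _ _ _ _)

theorem step_inv {S : Sys X L P} {μ : Measure X} (hS : S.Good μ) {σ : St X L P} (h : σ.Inv S)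
    (i : Option (Inst L P)) : (step S σ i).Inv S := by
  rcases i with _ | ⟨d, s, p, q, p', q'⟩
  · exact h
  · cases d
    · have hD := measurable_ruleB hS.measTp h s p q p' q'
      exact h.del hD (h.measρ.mergeOn hD _ _) s p q
    · have hD := measurable_ruleF hS.measTp h s p q p' q'
      exact h.del hD (h.measρ.mergeOn ((S.act s).symm.measurable hD) _ _) s p q

/-- The potential `E - V`. -/
noncomputable def Pot [Fintype L] [Fintype P] (μ : Measure X) (σ : St X L P) : ℝ :=
  mass μ σ.A - Vol μ σ.ρ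

theorem step_pot [Fintype L] [Fintype P] {S : Sys X L P} {μ : Measure X} [IsFiniteMeasure μ]
    (hS : S.Good μ) {σ : St X L P} (h : σ.Inv S) (i : Option (Inst L P)) :
    Pot μ (step S σ i) ≤ Pot μ σ := by
  rcases i with _ | ⟨d, s, p, q, p', q'⟩
  · exact le_rfl
  · cases d
    · have hD := measurable_ruleB hS.measTp h s p q p' q'
      have h1 := vol_le_mergeOn μ h.measρ hD p p'
      have h2 : mass μ (FoldCore.del σ.A (ruleB S σ s p q p' q') s p q) =
          mass μ σ.A - μ.real (ruleB S σ s p q p' q') :=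
        mass_del μ hD (fun x hx => hx.2.1)
      show mass μ (FoldCore.del σ.A (ruleB S σ s p q p' q') s p q) -
        Vol μ (mergeOn σ.ρ (ruleB S σ s p q p' q') p p') ≤ mass μ σ.A - Vol μ σ.ρ
      rw [h2]
      linarith
    · have hD := measurable_ruleF hS.measTp h s p q p' q'
      have hD' := (S.act s).symm.measurable hD
      have h1 := vol_le_mergeOn μ h.measρ hD' q q'
      have h2 : mass μ (FoldCore.del σ.A (ruleF S σ s p q p' q') s p q) =
          mass μ σ.A - μ.real (ruleF S σ s p q p' q') :=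
        mass_del μ hD (fun x hx => hx.2.1)
      have h3 : μ.real ((S.act s).symm ⁻¹' ruleF S σ s p q p' q') =
          μ.real (ruleF S σ s p q p' q') := by
        have := ((hS.mp s).symm (S.act s)).measure_preimage hD.nullMeasurableSet
        simp only [Measure.real, this]
      show mass μ (FoldCore.del σ.A (ruleF S σ s p q p' q') s p q) -
        Vol μ (mergeOn σ.ρ ((S.act s).symm ⁻¹' ruleF S σ s p q p' q') q q') ≤
          mass μ σ.A - Vol μ σ.ρ
      rw [h2]
      rw [h3] at h1
      linarith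

theorem step_le (S : Sys X L P) (σ : St X L P) (i : Option (Inst L P)) (x : X) :
    σ.ρ x ≤ (step S σ i).ρ x := by
  rcases i with _ | ⟨d, s, p, q, p', q'⟩
  · exact le_rfl
  · cases d
    · exact le_mergeOn _ _ _ _ _
    · exact le_mergeOn _ _ _ _ _

theorem step_sub (S : Sys X L P) (σ : St X L P) (i : Option (Inst L P)) (s : L) (p q : P) :
    (step S σ i).A s p q ⊆ σ.A s p q := by
  rcases i with _ | ⟨d, s', p', q', p'', q''⟩
  · exact subset_rfl
  · cases d
    · exact del_sub _ _ _ _ _ _ _ _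
    · exact del_sub _ _ _ _ _ _ _ _

/-- Each edge is parallel to an alive edge or a top. -/
def St.Par (S : Sys X L P) (σ : St X L P) : Prop :=
  ∀ x s p q, x ∈ S.Ed s p q → ∃ p' q', (x ∈ σ.A s p' q' ∨ x ∈ S.Tp s p' q') ∧
    σ.ρ x p p' ∧ σ.ρ (S.act s x) q q'

theorem step_par {S : Sys X L P} {σ : St X L P} (h : σ.Par S) (i : Option (Inst L P)) :
    (step S σ i).Par S := by
  intro x s0 p0 q0 hx
  obtain ⟨p1, q1, hal, h1, h2⟩ := h x s0 p0 q0 hx
  rcases i with _ | ⟨d, s, p, q, p', q'⟩
  · exact ⟨p1, q1, hal, h1, h2⟩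
  have hle : ∀ y, σ.ρ y ≤ (step S σ (some (d, s, p, q, p', q'))).ρ y := step_le S σ _
  by_cases hkeep : x ∈ (step S σ (some (d, s, p, q, p', q'))).A s0 p1 q1 ∨ x ∈ S.Tp s0 p1 q1
  · exact ⟨p1, q1, hkeep, hle _ h1, hle _ h2⟩
  · -- the edge `(s0,p1,q1)` was deleted at `x`
    push Not at hkeep
    obtain ⟨hk1, hk2⟩ := hkeep
    have hal' : x ∈ σ.A s0 p1 q1 := hal.resolve_right hk2
    cases d
    · -- backward
      have hdel : (s0, p1, q1) = (s, p, q) ∧ x ∈ ruleB S σ s p q p' q' := by
        by_contra hc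
        exact hk1 ⟨hal', hc⟩
      obtain ⟨heq, hD⟩ := hdel
      simp only [Prod.mk.injEq] at heq
      obtain ⟨rfl, rfl, rfl⟩ := heq
      obtain ⟨hne, _, hpart, hrel⟩ := hD
      refine ⟨p', q', ?_, ?_, ?_⟩
      · rcases hpart with hpart | hpart
        · refine Or.inl ⟨hpart, ?_⟩
          rintro ⟨heq, _⟩
          simp only [Prod.mk.injEq, true_and] at heq
          exact hne (by rw [heq.1, heq.2])
        · exact Or.inr hpart
      · have : (mergeOn σ.ρ (ruleB S σ s0 p1 q1 p' q') p1 p') x p1 p' :=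
          mergeOn_rel _ _ ⟨hne, hal', hpart, hrel⟩
        exact (step S σ (some (false, s0, p1, q1, p', q'))).ρ x |>.trans' (hle _ h1) this
      · exact (step S σ (some (false, s0, p1, q1, p', q'))).ρ (S.act s0 x) |>.trans'
          (hle _ h2) (hle _ hrel)
    · -- forward
      have hdel : (s0, p1, q1) = (s, p, q) ∧ x ∈ ruleF S σ s p q p' q' := by
        by_contra hc
        exact hk1 ⟨hal', hc⟩
      obtain ⟨heq, hD⟩ := hdel
      simp only [Prod.mk.injEq] at heq
      obtain ⟨rfl, rfl, rfl⟩ := heq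
      obtain ⟨hne, _, hpart, hrel⟩ := hD
      refine ⟨p', q', ?_, ?_, ?_⟩
      · rcases hpart with hpart | hpart
        · refine Or.inl ⟨hpart, ?_⟩
          rintro ⟨heq, _⟩
          simp only [Prod.mk.injEq, true_and] at heq
          exact hne (by rw [heq.1, heq.2])
        · exact Or.inr hpart
      · exact (step S σ (some (true, s0, p1, q1, p', q'))).ρ x |>.trans' (hle _ h1) (hle _ hrel)
      · have hmem : S.act s0 x ∈ (S.act s0).symm ⁻¹' ruleF S σ s0 p1 q1 p' q' := by
          simp only [mem_preimage, MeasurableEquiv.symm_apply_apply]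
          exact ⟨hne, hal', hpart, hrel⟩
        have : (mergeOn σ.ρ ((S.act s0).symm ⁻¹' ruleF S σ s0 p1 q1 p' q') q1 q') (S.act s0 x) q1 q' :=
          mergeOn_rel _ _ hmem
        exact (step S σ (some (true, s0, p1, q1, p', q'))).ρ (S.act s0 x) |>.trans' (hle _ h2) this

theorem step_min {S : Sys X L P} {μ : Measure X} (hS : S.Good μ) {σ : St X L P} (h : σ.Inv S)
    {τ : X → Setoid P} (hτ : S.FoldClosed τ) (hle : ∀ x, σ.ρ x ≤ τ x) (i : Option (Inst L P))
    (x : X) : (step S σ i).ρ x ≤ τ x := by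
  rcases i with _ | ⟨d, s, p, q, p', q'⟩
  · exact hle x
  · cases d
    · -- backward
      show mergeOn σ.ρ (ruleB S σ s p q p' q') p p' x ≤ τ x
      by_cases hx : x ∈ ruleB S σ s p q p' q'
      · rw [mergeOn_of_mem _ _ _ hx]
        obtain ⟨_, h1, h2, h3⟩ := hx
        have he1 := h.subEd _ _ _ h1
        have he2 : x ∈ S.Ed s p' q' := h2.elim (fun h' => h.subEd _ _ _ h') (fun h' => hS.tp_sub _ _ _ h')
        exact merge_le (hle x) ((hτ x s p q p' q' he1 he2).2 (hle _ h3))
      · rw [mergeOn_of_notMem _ _ _ hx]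
        exact hle x
    · -- forward
      show mergeOn σ.ρ ((S.act s).symm ⁻¹' ruleF S σ s p q p' q') q q' x ≤ τ x
      by_cases hx : x ∈ (S.act s).symm ⁻¹' ruleF S σ s p q p' q'
      · rw [mergeOn_of_mem _ _ _ hx]
        obtain ⟨_, h1, h2, h3⟩ := hx
        have he1 := h.subEd _ _ _ h1
        have he2 : (S.act s).symm x ∈ S.Ed s p' q' :=
          h2.elim (fun h' => h.subEd _ _ _ h') (fun h' => hS.tp_sub _ _ _ h')
        have := (hτ _ s p q p' q' he1 he2).1 (hle _ h3)
        rw [MeasurableEquiv.apply_symm_apply] at this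
        exact merge_le (hle x) this
      · rw [mergeOn_of_notMem _ _ _ hx]
        exact hle x

end System


section Limit

variable {X L P : Type*} [MeasurableSpace X] [Finite L] [Finite P]

/-- A fair sequence of rule instances. -/
noncomputable def fair (L P : Type*) [Finite L] [Finite P] : ℕ → Option (Inst L P) :=
  letI := Encodable.ofCountable (Inst L P)
  fun n => Encodable.decode (Nat.unpair n).1

omit [MeasurableSpace X] in
theorem fair_frequently (i : Inst L P) (N : ℕ) : ∃ n, N ≤ n ∧ fair L P n = some i := by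
  let _ := Encodable.ofCountable (Inst L P)
  refine ⟨Nat.pair (Encodable.encode i) N, Nat.right_le_pair _ _, ?_⟩
  simp [fair]

/-- The closure sequence. -/
noncomputable def seq (S : Sys X L P) (ρ₀ : X → Setoid P) : ℕ → St X L P
  | 0 => ⟨ρ₀, fun s p q => S.Ed s p q \ S.Tp s p q⟩
  | n + 1 => step S (seq S ρ₀ n) (fair L P n)

variable {S : Sys X L P} {ρ₀ : X → Setoid P} {μ : Measure X}

theorem seq_inv (hS : S.Good μ) (hρ₀ : MeasRel ρ₀) (n : ℕ) : (seq S ρ₀ n).Inv S := by
  induction n with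
  | zero =>
    exact ⟨hρ₀, fun s p q => (hS.measEd s p q).diff (hS.measTp s p q), fun s p q => sdiff_subset,
      fun s p q => disjoint_sdiff_left⟩
  | succ n ih => exact step_inv hS ih _

theorem seq_par (n : ℕ) : (seq S ρ₀ n).Par S := by
  induction n with
  | zero =>
    intro x s p q hx
    refine ⟨p, q, ?_, Setoid.refl' _ _, Setoid.refl' _ _⟩
    by_cases h : x ∈ S.Tp s p q
    · exact Or.inr h
    · exact Or.inl ⟨hx, h⟩
  | succ n ih => exact step_par ih _

theorem seq_mono (x : X) {m n : ℕ} (h : m ≤ n) : (seq S ρ₀ m).ρ x ≤ (seq S ρ₀ n).ρ x := by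
  induction n, h using Nat.le_induction with
  | base => exact le_rfl
  | succ n _ ih => exact fun a b hab => step_le S _ _ x (ih hab)

theorem seq_anti (s : L) (p q : P) {m n : ℕ} (h : m ≤ n) :
    (seq S ρ₀ n).A s p q ⊆ (seq S ρ₀ m).A s p q := by
  induction n, h using Nat.le_induction with
  | base => exact subset_rfl
  | succ n _ ih => exact (step_sub S _ _ s p q).trans ih

/-- The limit relation. -/
@[instance_reducible]
def rhoLim (S : Sys X L P) (ρ₀ : X → Setoid P) (x : X) : Setoid P where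
  r p q := ∃ n, (seq S ρ₀ n).ρ x p q
  iseqv := by
    refine ⟨fun p => ⟨0, Setoid.refl' _ _⟩, fun ⟨n, h⟩ => ⟨n, Setoid.symm' _ h⟩, ?_⟩
    rintro a b c ⟨m, h⟩ ⟨n, k⟩
    exact ⟨max m n, Setoid.trans' _ (seq_mono x (le_max_left m n) h)
      (seq_mono x (le_max_right m n) k)⟩

/-- The limit alive set. -/
def aLim (S : Sys X L P) (ρ₀ : X → Setoid P) (s : L) (p q : P) : Set X :=
  ⋂ n, (seq S ρ₀ n).A s p q

theorem ev_rho (x : X) : ∀ᶠ n in atTop, (seq S ρ₀ n).ρ x = rhoLim S ρ₀ x := by
  have : ∀ p q, ∀ᶠ n in atTop, ((seq S ρ₀ n).ρ x p q ↔ rhoLim S ρ₀ x p q) := by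
    intro p q
    by_cases h : rhoLim S ρ₀ x p q
    · obtain ⟨m, hm⟩ := h
      filter_upwards [eventually_ge_atTop m] with n hn
      exact ⟨fun _ => ⟨m, hm⟩, fun _ => seq_mono x hn hm⟩
    · exact Eventually.of_forall fun n => ⟨fun hn => absurd ⟨n, hn⟩ h, fun hn => absurd hn h⟩
  have h2 : ∀ᶠ n in atTop, ∀ p q, ((seq S ρ₀ n).ρ x p q ↔ rhoLim S ρ₀ x p q) :=
    eventually_all.2 fun p => eventually_all.2 fun q => this p q
  filter_upwards [h2] with n hn
  exact Setoid.ext fun a b => hn a b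

theorem ev_A (x : X) :
    ∀ᶠ n in atTop, ∀ s p q, (x ∈ (seq S ρ₀ n).A s p q ↔ x ∈ aLim S ρ₀ s p q) := by
  refine eventually_all.2 fun s => eventually_all.2 fun p => eventually_all.2 fun q => ?_
  by_cases h : x ∈ aLim S ρ₀ s p q
  · exact Eventually.of_forall fun n => ⟨fun _ => h, fun _ => mem_iInter.1 h n⟩
  · have : ∃ m, x ∉ (seq S ρ₀ m).A s p q := by
      by_contra hc
      push Not at hc
      exact h (mem_iInter.2 hc)
    obtain ⟨m, hm⟩ := this
    filter_upwards [eventually_ge_atTop m] with n hn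
    exact ⟨fun hx => absurd (seq_anti s p q hn hx) hm, fun hx => absurd hx h⟩

theorem measRel_rhoLim (hS : S.Good μ) (hρ₀ : MeasRel ρ₀) : MeasRel (rhoLim S ρ₀) := by
  intro p q
  have : {x | rhoLim S ρ₀ x p q} = ⋃ n, {x | (seq S ρ₀ n).ρ x p q} := by
    ext x
    simp only [mem_ofPred_eq, mem_iUnion]
    rfl
  rw [this]
  exact MeasurableSet.iUnion fun n => (seq_inv hS hρ₀ n).measρ p q

theorem measurable_aLim (hS : S.Good μ) (hρ₀ : MeasRel ρ₀) (s : L) (p q : P) :
    MeasurableSet (aLim S ρ₀ s p q) :=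
  MeasurableSet.iInter fun n => (seq_inv hS hρ₀ n).measA s p q

theorem tendsto_pot [Fintype L] [Fintype P] [IsFiniteMeasure μ] (hS : S.Good μ) (hρ₀ : MeasRel ρ₀) :
    Tendsto (fun n => Pot μ (seq S ρ₀ n)) atTop
      (𝓝 (mass μ (aLim S ρ₀) - Vol μ (rhoLim S ρ₀))) := by
  refine Tendsto.sub ?_ ?_
  · refine tendsto_finsetSum _ fun i _ => ?_
    have hanti : Antitone fun n => (seq S ρ₀ n).A i.1 i.2.1 i.2.2 :=
      fun m n h => seq_anti _ _ _ h
    have := tendsto_measure_iInter_atTop (μ := μ)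
      (fun n => ((seq_inv hS hρ₀ n).measA i.1 i.2.1 i.2.2).nullMeasurableSet) hanti
      ⟨0, measure_ne_top _ _⟩
    exact (ENNReal.tendsto_toReal (measure_ne_top _ _)).comp this
  · refine tendsto_integral_of_dominated_convergence (fun _ => (Fintype.card P : ℝ))
      (fun n => ((seq_inv hS hρ₀ n).measρ.measurable_comp
        (fun s => (numCls s : ℝ))).aestronglyMeasurable) (integrable_const _)
      (fun n => ae_of_all _ fun x => ?_) (ae_of_all _ fun x => ?_)
    · rw [Real.norm_of_nonneg (Nat.cast_nonneg _)]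
      exact_mod_cast numCls_le _
    · refine tendsto_const_nhds.congr' ?_
      filter_upwards [ev_rho (S := S) (ρ₀ := ρ₀) x] with n hn
      rw [hn]

/-- The outcome of the restricted closure. -/
structure IsClosure [Fintype L] [Fintype P] (S : Sys X L P) (μ : Measure X) (ρ₀ ρ : X → Setoid P)
    (A : L → P → P → Set X) : Prop where
  measρ : MeasRel ρ
  measA : ∀ s p q, MeasurableSet (A s p q)
  ge : ∀ x, ρ₀ x ≤ ρ x
  subEd : ∀ s p q, A s p q ⊆ S.Ed s p q
  disjTp : ∀ s p q, Disjoint (A s p q) (S.Tp s p q)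
  cost : mass μ A - Vol μ ρ ≤ mass μ (fun s p q => S.Ed s p q \ S.Tp s p q) - Vol μ ρ₀
  noF : ∀ x s p q p' q', (p, q) ≠ (p', q') → x ∈ A s p q → (x ∈ A s p' q' ∨ x ∈ S.Tp s p' q') →
    ¬ ρ x p p'
  noB : ∀ x s p q p' q', (p, q) ≠ (p', q') → x ∈ A s p q → (x ∈ A s p' q' ∨ x ∈ S.Tp s p' q') →
    ¬ ρ (S.act s x) q q'
  par : ∀ x s p q, x ∈ S.Ed s p q → ∃ p' q', (x ∈ A s p' q' ∨ x ∈ S.Tp s p' q') ∧
    ρ x p p' ∧ ρ (S.act s x) q q'
  min : ∀ τ : X → Setoid P, S.FoldClosed τ → (∀ x, ρ₀ x ≤ τ x) → ∀ x, ρ x ≤ τ x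

theorem exists_closure [Fintype L] [Fintype P] [IsFiniteMeasure μ] (hS : S.Good μ)
    (hρ₀ : MeasRel ρ₀) : ∃ ρ A, IsClosure S μ ρ₀ ρ A := by
  refine ⟨rhoLim S ρ₀, aLim S ρ₀, measRel_rhoLim hS hρ₀, measurable_aLim hS hρ₀,
    fun x a b h => ⟨0, h⟩, ?_, ?_, ?_, ?_, ?_, ?_, ?_⟩
  · exact fun s p q => (iInter_subset _ 0).trans ((seq_inv hS hρ₀ 0).subEd s p q)
  · exact fun s p q => ((seq_inv hS hρ₀ 0).disjTp s p q).mono_left (iInter_subset _ 0)
  · have hanti : ∀ n, Pot μ (seq S ρ₀ n) ≤ Pot μ (seq S ρ₀ 0) := by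
      intro n
      induction n with
      | zero => exact le_rfl
      | succ n ih => exact (step_pot hS (seq_inv hS hρ₀ n) _).trans ih
    exact le_of_tendsto' (tendsto_pot hS hρ₀) hanti
  · intro x s p q p' q' hne hA hB hrel
    have hA' := ev_A (S := S) (ρ₀ := ρ₀) x
    have hρ' := ev_rho (S := S) (ρ₀ := ρ₀) x
    obtain ⟨N, hN⟩ := eventually_atTop.1 (hA'.and hρ')
    obtain ⟨n, hn, hf⟩ := fair_frequently (L := L) (P := P) (true, s, p, q, p', q') N
    obtain ⟨h1, h2⟩ := hN n hn
    have hD : x ∈ ruleF S (seq S ρ₀ n) s p q p' q' := by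
      refine ⟨hne, mem_iInter.1 hA n, ?_, ?_⟩
      · exact hB.elim (fun h => Or.inl (mem_iInter.1 h n)) Or.inr
      · rw [h2]; exact hrel
    have hnext := mem_iInter.1 hA (n + 1)
    have : x ∈ del (seq S ρ₀ n).A (ruleF S (seq S ρ₀ n) s p q p' q') s p q s p q := by
      have heq : seq S ρ₀ (n + 1) = step S (seq S ρ₀ n) (fair L P n) := rfl
      rw [heq, hf] at hnext
      exact hnext
    exact this.2 ⟨rfl, hD⟩
  · intro x s p q p' q' hne hA hB hrel
    have hA' := ev_A (S := S) (ρ₀ := ρ₀) x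
    have hρ' := ev_rho (S := S) (ρ₀ := ρ₀) (S.act s x)
    obtain ⟨N, hN⟩ := eventually_atTop.1 (hA'.and hρ')
    obtain ⟨n, hn, hf⟩ := fair_frequently (L := L) (P := P) (false, s, p, q, p', q') N
    obtain ⟨h1, h2⟩ := hN n hn
    have hD : x ∈ ruleB S (seq S ρ₀ n) s p q p' q' := by
      refine ⟨hne, mem_iInter.1 hA n, ?_, ?_⟩
      · exact hB.elim (fun h => Or.inl (mem_iInter.1 h n)) Or.inr
      · rw [h2]; exact hrel
    have hnext := mem_iInter.1 hA (n + 1)
    have : x ∈ del (seq S ρ₀ n).A (ruleB S (seq S ρ₀ n) s p q p' q') s p q s p q := by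
      have heq : seq S ρ₀ (n + 1) = step S (seq S ρ₀ n) (fair L P n) := rfl
      rw [heq, hf] at hnext
      exact hnext
    exact this.2 ⟨rfl, hD⟩
  · intro x s p q hx
    have hA' := ev_A (S := S) (ρ₀ := ρ₀) x
    have hρ1 := ev_rho (S := S) (ρ₀ := ρ₀) x
    have hρ2 := ev_rho (S := S) (ρ₀ := ρ₀) (S.act s x)
    obtain ⟨n, h1, h2, h3⟩ := (hA'.and (hρ1.and hρ2)).exists
    obtain ⟨p', q', hal, hr1, hr2⟩ := seq_par (S := S) (ρ₀ := ρ₀) n x s p q hx
    refine ⟨p', q', ?_, ?_, ?_⟩
    · exact hal.elim (fun h => Or.inl ((h1 _ _ _).1 h)) Or.inr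
    · rw [← h2]; exact hr1
    · rw [← h3]; exact hr2
  · intro τ hτ hle x
    have key : ∀ n, ∀ x, (seq S ρ₀ n).ρ x ≤ τ x := by
      intro n
      induction n with
      | zero => exact hle
      | succ n ih => exact step_min hS (seq_inv hS hρ₀ n) hτ ih _
    rintro a b ⟨n, hn⟩
    exact key n x hn

end Limit


section Levels

variable {X L P : Type*} [MeasurableSpace X]

/-- The point reached from `z` by the word `u`. -/
def wAct (S : Sys X L P) : List L → X → X
  | [], z => z
  | y :: ys, z => wAct S ys (S.act y z)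

/-- The word `u` can be read from `(z, a)` to `(wAct u z, b)`, modulo `ρ` at each vertex. -/
def Reads (S : Sys X L P) (ρ : X → Setoid P) : List L → X → P → P → Prop
  | [], z, a, b => ρ z a b
  | y :: ys, z, a, b => ∃ c d, ρ z a c ∧ z ∈ S.Ed y c d ∧ Reads S ρ ys (S.act y z) d b

theorem Reads.mono {S : Sys X L P} {ρ ρ' : X → Setoid P} (h : ∀ x, ρ x ≤ ρ' x) (u : List L) :
    ∀ (z : X) (a b : P), Reads S ρ u z a b → Reads S ρ' u z a b := by
  induction u with
  | nil => exact fun z a b hr => h z hr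
  | cons y ys ih =>
    rintro z a b ⟨c, d, h1, h2, h3⟩
    exact ⟨c, d, h _ h1, h2, ih _ _ _ h3⟩

variable [Fintype L] [Fintype P] {S : Sys X L P} {μ : Measure X} {ρ₀ ρ : X → Setoid P}
  {A : L → P → P → Set X}

/-- Local fold statement: two edges with the same letter at `x` have related sources iff they have
related targets, as soon as this holds for the tops parallel to them. -/
theorem IsClosure.edge_iff (C : IsClosure S μ ρ₀ ρ A) {x : X} {s : L} {p q p' q' : P}
    (he : x ∈ S.Ed s p q) (he' : x ∈ S.Ed s p' q')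
    (htt : ∀ p₁ q₁ p₂ q₂, x ∈ S.Tp s p₁ q₁ → x ∈ S.Tp s p₂ q₂ →
      ρ x p p₁ → ρ (S.act s x) q q₁ → ρ x p' p₂ → ρ (S.act s x) q' q₂ →
      (ρ x p₁ p₂ ↔ ρ (S.act s x) q₁ q₂)) :
    ρ x p p' ↔ ρ (S.act s x) q q' := by
  obtain ⟨p₁, q₁, h1, hp1, hq1⟩ := C.par x s p q he
  obtain ⟨p₂, q₂, h2, hp2, hq2⟩ := C.par x s p' q' he'
  have key : ρ x p₁ p₂ ↔ ρ (S.act s x) q₁ q₂ := by
    rcases h1 with h1 | h1 <;> rcases h2 with h2 | h2
    · by_cases heq : (p₁, q₁) = (p₂, q₂)
      · simp only [Prod.mk.injEq] at heq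
        rw [heq.1, heq.2]
        exact ⟨fun _ => Setoid.refl' _ _, fun _ => Setoid.refl' _ _⟩
      · exact ⟨fun h => absurd h (C.noF x s _ _ _ _ heq h1 (Or.inl h2)),
          fun h => absurd h (C.noB x s _ _ _ _ heq h1 (Or.inl h2))⟩
    · have heq : (p₁, q₁) ≠ (p₂, q₂) := by
        intro h
        simp only [Prod.mk.injEq] at h
        rw [← h.1, ← h.2] at h2
        exact (disjoint_left.1 (C.disjTp s p₁ q₁)) h1 h2
      exact ⟨fun h => absurd h (C.noF x s _ _ _ _ heq h1 (Or.inr h2)),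
        fun h => absurd h (C.noB x s _ _ _ _ heq h1 (Or.inr h2))⟩
    · have heq : (p₂, q₂) ≠ (p₁, q₁) := by
        intro h
        simp only [Prod.mk.injEq] at h
        rw [h.1, h.2] at h2
        exact (disjoint_left.1 (C.disjTp s p₁ q₁)) h2 h1
      exact ⟨fun h => absurd (Setoid.symm' _ h) (C.noF x s _ _ _ _ heq h2 (Or.inr h1)),
        fun h => absurd (Setoid.symm' _ h) (C.noB x s _ _ _ _ heq h2 (Or.inr h1))⟩
    · exact htt _ _ _ _ h1 h2 hp1 hq1 hp2 hq2
  constructor
  · intro h
    have : ρ x p₁ p₂ := Setoid.trans' _ (Setoid.symm' _ hp1) (Setoid.trans' _ h hp2)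
    exact Setoid.trans' _ hq1 (Setoid.trans' _ (key.1 this) (Setoid.symm' _ hq2))
  · intro h
    have : ρ (S.act s x) q₁ q₂ := Setoid.trans' _ (Setoid.symm' _ hq1) (Setoid.trans' _ h hq2)
    exact Setoid.trans' _ hp1 (Setoid.trans' _ (key.2 this) (Setoid.symm' _ hp2))

/-- A letter without tops is fold closed. -/
theorem IsClosure.edge_iff_of_noTop (C : IsClosure S μ ρ₀ ρ A) {t : L} (ht : ∀ p q, S.Tp t p q = ∅)
    {x : X} {p q p' q' : P} (he : x ∈ S.Ed t p q) (he' : x ∈ S.Ed t p' q') :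
    ρ x p p' ↔ ρ (S.act t x) q q' :=
  C.edge_iff he he' fun p₁ q₁ _ _ h1 => by
    rw [ht] at h1
    exact absurd h1 (notMem_empty _)

/-- **Level theorem.** Height `h`, tops have legs `t` to one height lower, bottoms made of letters
preserving `h`: then the closure is fold closed. -/
theorem IsClosure.foldClosed_of_cells (C : IsClosure S μ ρ₀ ρ A) (t : L) (w : L → List L)
    (h : P → ℕ) (hρ : ∀ x p q, ρ x p q → h p = h q)
    (htop : ∀ p q, S.Tp t p q = ∅) (hw : ∀ s, t ∉ w s)
    (hx : ∀ x s p q, s ≠ t → x ∈ S.Ed s p q → h q = h p)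
    (hcell : ∀ x s p q, x ∈ S.Tp s p q → ∃ a b, x ∈ S.Ed t p a ∧ S.act s x ∈ S.Ed t q b ∧
      Reads S ρ (w s) (S.act t x) a b ∧ wAct S (w s) (S.act t x) = S.act t (S.act s x) ∧
      h a + 1 = h p) :
    S.FoldClosed ρ := by
  -- reading a word of non-`t` letters
  have reads : ∀ m : ℕ, (∀ s, s ≠ t → ∀ x p q p' q', x ∈ S.Ed s p q → x ∈ S.Ed s p' q' → h p = m →
      (ρ x p p' ↔ ρ (S.act s x) q q')) →
      ∀ (u : List L), t ∉ u → ∀ (z : X) (a₁ b₁ a₂ b₂ : P), h a₁ = m →
        Reads S ρ u z a₁ b₁ → Reads S ρ u z a₂ b₂ →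
        (ρ z a₁ a₂ ↔ ρ (wAct S u z) b₁ b₂) := by
    intro m Q u
    induction u with
    | nil =>
      intro _ z a₁ b₁ a₂ b₂ _ h1 h2
      have h1' : ρ z a₁ b₁ := h1
      have h2' : ρ z a₂ b₂ := h2
      show ρ z a₁ a₂ ↔ ρ z b₁ b₂
      exact ⟨fun k => Setoid.trans' _ (Setoid.symm' _ h1') (Setoid.trans' _ k h2'),
        fun k => Setoid.trans' _ h1' (Setoid.trans' _ k (Setoid.symm' _ h2'))⟩
    | cons y ys ih =>
      intro hu z a₁ b₁ a₂ b₂ hm h1 h2
      obtain ⟨c₁, d₁, hc₁, he₁, hr₁⟩ := h1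
      obtain ⟨c₂, d₂, hc₂, he₂, hr₂⟩ := h2
      have hy : y ≠ t := fun e => hu (e ▸ List.mem_cons_self)
      have hys : t ∉ ys := fun e => hu (List.mem_cons_of_mem _ e)
      have hcm : h c₁ = m := (hρ _ _ _ hc₁).symm.trans hm
      have hdm : h d₁ = m := (hx _ _ _ _ hy he₁).trans hcm
      have hQ := Q y hy z c₁ d₁ c₂ d₂ he₁ he₂ hcm
      have hih := ih hys (S.act y z) d₁ b₁ d₂ b₂ hdm hr₁ hr₂
      show ρ z a₁ a₂ ↔ ρ (wAct S ys (S.act y z)) b₁ b₂
      rw [← hih, ← hQ]
      exact ⟨fun k => Setoid.trans' _ (Setoid.symm' _ hc₁) (Setoid.trans' _ k hc₂),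
        fun k => Setoid.trans' _ hc₁ (Setoid.trans' _ k (Setoid.symm' _ hc₂))⟩
  -- the induction on the height
  have main : ∀ k : ℕ, ∀ s, s ≠ t → ∀ x p q p' q', x ∈ S.Ed s p q → x ∈ S.Ed s p' q' → h p = k →
      (ρ x p p' ↔ ρ (S.act s x) q q') := by
    intro k
    induction k using Nat.strong_induction_on with
    | _ k IH =>
      intro s hs x p q p' q' he he' hk
      refine C.edge_iff he he' fun p₁ q₁ p₂ q₂ h1 h2 hp1 hq1 hp2 hq2 => ?_
      obtain ⟨a₁, b₁, l₁, r₁, rd₁, hfib, ha₁⟩ := hcell x s p₁ q₁ h1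
      obtain ⟨a₂, b₂, l₂, r₂, rd₂, _, _⟩ := hcell x s p₂ q₂ h2
      have hp₁k : h p₁ = k := (hρ _ _ _ hp1).symm.trans hk
      have hm : h a₁ + 1 = k := ha₁.trans hp₁k
      have hlt : h a₁ < k := by omega
      have hL := C.edge_iff_of_noTop htop l₁ l₂
      have hR := C.edge_iff_of_noTop htop r₁ r₂
      have hB := reads (h a₁) (fun s' hs' x' p' q' p'' q'' e1 e2 e3 =>
        IH (h a₁) hlt s' hs' x' p' q' p'' q'' e1 e2 e3) (w s) (hw s) (S.act t x) a₁ b₁ a₂ b₂ rfl
        rd₁ rd₂
      rw [hL, hB, hfib, hR]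
  intro x s p q p' q' he he'
  by_cases hs : s = t
  · subst hs
    exact C.edge_iff_of_noTop htop he he'
  · exact main (h p) s hs x p q p' q' he he' rfl

end Levels


section Fold

variable {X L P : Type*} [MeasurableSpace X] [Fintype L] [Fintype P]

/-- `ρ` is the least fold closed measurable relation family above `ρ₀`. -/
structure IsFold (S : Sys X L P) (ρ₀ ρ : X → Setoid P) : Prop where
  measρ : MeasRel ρ
  ge : ∀ x, ρ₀ x ≤ ρ x
  closed : S.FoldClosed ρ
  min : ∀ τ : X → Setoid P, S.FoldClosed τ → (∀ x, ρ₀ x ≤ τ x) → ∀ x, ρ x ≤ τ x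

/-- Existence of the fold. -/
theorem exists_fold {S : Sys X L P} {μ : Measure X} [IsFiniteMeasure μ] (hS : S.Good μ)
    {ρ₀ : X → Setoid P} (hρ₀ : MeasRel ρ₀) : ∃ ρ, IsFold S ρ₀ ρ := by
  let S' : Sys X L P := ⟨S.act, S.Ed, fun _ _ _ => ∅⟩
  have hS' : S'.Good μ := ⟨hS.mp, hS.measEd, fun _ _ _ => MeasurableSet.empty,
    fun _ _ _ => empty_subset _⟩
  obtain ⟨ρ, A, C⟩ := exists_closure (S := S') hS' hρ₀
  refine ⟨ρ, C.measρ, C.ge, ?_, C.min⟩
  intro x s p q p' q' he he'
  exact C.edge_iff he he' fun _ _ _ _ h1 => absurd h1 (notMem_empty _)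

end Fold

section Cover

variable {X L P : Type*} [MeasurableSpace X]

/-- The sheets of the cyclic cover keep their level, relations only inside one level. -/
@[instance_reducible]
def liftRel (M : ℕ) (r : Setoid P) : Setoid (P × ZMod M) where
  r a b := a.2 = b.2 ∧ r a.1 b.1
  iseqv := ⟨fun a => ⟨rfl, r.refl' _⟩, fun h => ⟨h.1.symm, r.symm' h.2⟩,
    fun h k => ⟨h.1.trans k.1, r.trans' h.2 k.2⟩⟩

theorem liftRel_apply (M : ℕ) (r : Setoid P) (a b : P × ZMod M) :
    liftRel M r a b ↔ a.2 = b.2 ∧ r a.1 b.1 := Iff.rfl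

theorem numCls_liftRel [Finite P] (M : ℕ) [NeZero M] (r : Setoid P) :
    numCls (liftRel M r) = numCls r * M := by
  unfold numCls
  have hb : Function.Bijective (fun c : Quotient (liftRel M r) =>
      Quotient.lift (s := liftRel M r) (fun a : P × ZMod M => ((Quotient.mk r a.1 : Quotient r), a.2))
        (fun a b h => by
          have h' : a.2 = b.2 ∧ r a.1 b.1 := h
          exact Prod.ext (Quotient.sound h'.2) h'.1) c) := by
    constructor
    · intro c c' h
      induction c using Quotient.inductionOn with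
      | h a =>
        induction c' using Quotient.inductionOn with
        | h b =>
          have h1 : ((Quotient.mk r a.1 : Quotient r), a.2) = ((Quotient.mk r b.1 : Quotient r), b.2) := h
          have h2 := Prod.ext_iff.1 h1
          exact Quotient.sound (s := liftRel M r) ⟨h2.2, Quotient.exact h2.1⟩
    · rintro ⟨c, j⟩
      induction c using Quotient.inductionOn with
      | h p => exact ⟨Quotient.mk _ (p, j), rfl⟩
  rw [Nat.card_eq_of_bijective _ hb, Nat.card_prod, Nat.card_zmod]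

theorem MeasRel.liftRel {ρ : X → Setoid P} (h : MeasRel ρ) (M : ℕ) :
    MeasRel fun x => FoldCore.liftRel M (ρ x) := by
  intro a b
  by_cases hab : a.2 = b.2
  · have : {x | FoldCore.liftRel M (ρ x) a b} = {x | ρ x a.1 b.1} := by
      ext x
      simp [liftRel_apply, hab]
    rw [this]
    exact h _ _
  · have : {x | FoldCore.liftRel M (ρ x) a b} = ∅ := by
      ext x
      simp [liftRel_apply, hab]
    rw [this]
    exact MeasurableSet.empty

theorem vol_liftRel [Fintype P] (μ : Measure X) (ρ : X → Setoid P) (M : ℕ) [NeZero M] :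
    Vol μ (fun x => liftRel M (ρ x)) = M * Vol μ ρ := by
  unfold Vol
  rw [← integral_const_mul]
  congr 1
  ext x
  rw [numCls_liftRel]
  push_cast
  ring

open Classical in
/-- The level shift of a letter. -/
noncomputable def shift (M : ℕ) (t s : L) : ZMod M := if s = t then 1 else 0

/-- The cyclic `M`-fold cover; tops at level `0` are no longer designated. -/
noncomputable def cov (M : ℕ) (S : Sys X L P) (t : L) : Sys X L (P × ZMod M) where
  act := S.act
  Ed s a b := {x | b.2 = a.2 + shift M t s ∧ x ∈ S.Ed s a.1 b.1}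
  Tp s a b := {x | b.2 = a.2 + shift M t s ∧ a.2 ≠ 0 ∧ x ∈ S.Tp s a.1 b.1}

theorem cov_good (M : ℕ) {S : Sys X L P} {μ : Measure X} (hS : S.Good μ) (t : L) :
    (cov M S t).Good μ where
  mp := hS.mp
  measEd s a b := by
    by_cases h : b.2 = a.2 + shift M t s
    · have : (cov M S t).Ed s a b = S.Ed s a.1 b.1 := by
        ext x
        simp [cov, h]
      rw [this]
      exact hS.measEd _ _ _
    · have : (cov M S t).Ed s a b = ∅ := by
        ext x
        simp [cov, h]
      rw [this]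
      exact MeasurableSet.empty
  measTp s a b := by
    by_cases h : b.2 = a.2 + shift M t s ∧ a.2 ≠ 0
    · have : (cov M S t).Tp s a b = S.Tp s a.1 b.1 := by
        ext x
        simp [cov, h.1, h.2]
      rw [this]
      exact hS.measTp _ _ _
    · have : (cov M S t).Tp s a b = ∅ := by
        ext x
        simp only [cov, mem_ofPred_eq, mem_empty_iff_false, iff_false]
        rintro ⟨h1, h2, _⟩
        exact h ⟨h1, h2⟩
      rw [this]
      exact MeasurableSet.empty
  tp_sub s a b x h := ⟨h.1, hS.tp_sub _ _ _ h.2.2⟩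

omit [MeasurableSpace X] in
theorem zmod_val_step (M : ℕ) [NeZero M] (j : ZMod M) (hj : j ≠ 0) :
    (-(j + 1)).val + 1 = (-j).val := by
  have hu : -j ≠ 0 := neg_ne_zero.2 hj
  have hM : 1 < M := by
    by_contra hc
    have hM1 : M = 1 := by
      have := NeZero.pos M
      omega
    subst hM1
    exact hj (Subsingleton.elim _ _)
  have : Fact (1 < M) := ⟨hM⟩
  have h1 : (1 : ZMod M).val = 1 := ZMod.val_one M
  have hv : (-j).val ≠ 0 := fun h => hu ((ZMod.val_eq_zero _).1 h)
  have h2 : (1 : ZMod M).val ≤ (-j).val := by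
    rw [h1]
    omega
  have h3 := ZMod.val_sub h2
  have h4 : -(j + 1) = -j - 1 := by ring
  rw [h4, h3, h1]
  omega

end Cover


section PiFold

variable {X L P : Type*} [MeasurableSpace X]

/-- The pair of classes of a pair of sheets. -/
def clsPair (r₁ r₂ : Setoid P) (c : P × P) : Quotient r₁ × Quotient r₂ :=
  (Quotient.mk r₁ c.1, Quotient.mk r₂ c.2)

/-- The number of pairs of classes hit by a set of pairs of sheets. -/
noncomputable def numPairs (r₁ r₂ : Setoid P) (R : Set (P × P)) : ℕ := (clsPair r₁ r₂ '' R).ncard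

/-- The number of edge classes of letter `s` at `x`. -/
noncomputable def numE (S : Sys X L P) (ρ : X → Setoid P) (s : L) (x : X) : ℕ :=
  numPairs (ρ x) (ρ (S.act s x)) {c | x ∈ S.Ed s c.1 c.2}

/-- The number of top classes of letter `s` at `x`. -/
noncomputable def numT (S : Sys X L P) (ρ : X → Setoid P) (s : L) (x : X) : ℕ :=
  numPairs (ρ x) (ρ (S.act s x)) {c | x ∈ S.Tp s c.1 c.2}

/-- The mass of the edges of the quotient. -/
noncomputable def edgeMass [Fintype L] (μ : Measure X) (S : Sys X L P) (ρ : X → Setoid P) : ℝ :=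
  ∑ s, ∫ x, (numE S ρ s x : ℝ) ∂μ

/-- The mass of the distinct top classes of the quotient. -/
noncomputable def topMass [Fintype L] (μ : Measure X) (S : Sys X L P) (ρ : X → Setoid P) : ℝ :=
  ∑ s, ∫ x, (numT S ρ s x : ℝ) ∂μ

theorem measurable_of_levels {α : Type*} [Finite α] (g : X → α)
    (h : ∀ a, MeasurableSet (g ⁻¹' {a})) (f : α → ℝ) : Measurable fun x => f (g x) := by
  intro B _
  have : (fun x => f (g x)) ⁻¹' B = ⋃ a : {a : α // f a ∈ B}, g ⁻¹' {a.1} := by
    ext x
    simp only [mem_preimage, mem_iUnion, mem_singleton_iff, Subtype.exists, exists_prop]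
    exact ⟨fun hx => ⟨g x, hx, rfl⟩, fun ⟨a, ha, hxa⟩ => hxa ▸ ha⟩
  rw [this]
  exact MeasurableSet.iUnion fun a => h a.1

theorem measurable_numPairs [Fintype P] {ρ : X → Setoid P} (hρ : MeasRel ρ) (T : X ≃ᵐ X)
    {B : P → P → Set X} (hB : ∀ p q, MeasurableSet (B p q)) :
    Measurable fun x => (numPairs (ρ x) (ρ (T x)) {c | x ∈ B c.1 c.2} : ℝ) := by
  have hfin : Finite (Setoid P) := finite_setoid
  have := measurable_of_levels (α := Setoid P × Setoid P × Set (P × P))
    (fun x => (ρ x, ρ (T x), {c | x ∈ B c.1 c.2})) ?_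
    (fun a => (numPairs a.1 a.2.1 a.2.2 : ℝ))
  · exact this
  · rintro ⟨r₁, r₂, R⟩
    have : (fun x => (ρ x, ρ (T x), ({c | x ∈ B c.1 c.2} : Set (P × P)))) ⁻¹' {(r₁, r₂, R)} =
        {x | ρ x = r₁} ∩ (T ⁻¹' {x | ρ x = r₂} ∩ ⋂ c : P × P, {x | x ∈ B c.1 c.2 ↔ c ∈ R}) := by
      ext x
      simp only [mem_preimage, mem_singleton_iff, Prod.mk.injEq, mem_inter_iff, mem_ofPred_eq,
        mem_iInter, Set.ext_iff]
    rw [this]
    refine (hρ.measurableSet_eq r₁).inter ((T.measurable (hρ.measurableSet_eq r₂)).inter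
      (MeasurableSet.iInter fun c => ?_))
    by_cases hc : c ∈ R
    · have : {x | x ∈ B c.1 c.2 ↔ c ∈ R} = B c.1 c.2 := by ext x; simp [hc]
      rw [this]; exact hB _ _
    · have : {x | x ∈ B c.1 c.2 ↔ c ∈ R} = (B c.1 c.2)ᶜ := by ext x; simp [hc]
      rw [this]; exact (hB _ _).compl

theorem numPairs_le [Fintype P] (r₁ r₂ : Setoid P) (R : Set (P × P)) :
    numPairs r₁ r₂ R ≤ Fintype.card (P × P) := by
  unfold numPairs
  refine (Set.ncard_image_le (Set.toFinite R)).trans ?_
  rw [← Nat.card_eq_fintype_card, ← Set.ncard_univ]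
  exact Set.ncard_le_ncard (subset_univ _) (Set.toFinite _)

theorem integrable_numPairs [Fintype P] {μ : Measure X} [IsFiniteMeasure μ] {ρ : X → Setoid P}
    (hρ : MeasRel ρ) (T : X ≃ᵐ X) {B : P → P → Set X} (hB : ∀ p q, MeasurableSet (B p q)) :
    Integrable (fun x => (numPairs (ρ x) (ρ (T x)) {c | x ∈ B c.1 c.2} : ℝ)) μ := by
  refine Integrable.of_bound (measurable_numPairs hρ T hB).aestronglyMeasurable
    (Fintype.card (P × P) : ℝ) (ae_of_all _ fun x => ?_)
  rw [Real.norm_of_nonneg (Nat.cast_nonneg _)]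
  exact_mod_cast numPairs_le _ _ _

theorem sum_real_eq_integral_ncard [Fintype P] (μ : Measure X) [IsFiniteMeasure μ]
    {B : P → P → Set X} (hB : ∀ p q, MeasurableSet (B p q)) :
    ∑ c : P × P, μ.real (B c.1 c.2) = ∫ x, (({c : P × P | x ∈ B c.1 c.2}).ncard : ℝ) ∂μ := by
  classical
  have h1 : ∀ x, (({c : P × P | x ∈ B c.1 c.2}).ncard : ℝ) =
      ∑ c : P × P, (B c.1 c.2).indicator (1 : X → ℝ) x := by
    intro x
    have : ({c : P × P | x ∈ B c.1 c.2}).ncard =
        (Finset.univ.filter fun c : P × P => x ∈ B c.1 c.2).card := by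
      rw [← Set.ncard_coe_finset]
      congr 1
      ext c
      simp
    rw [this, Finset.card_filter]
    push_cast
    refine Finset.sum_congr rfl fun c _ => ?_
    by_cases hc : x ∈ B c.1 c.2 <;> simp [hc]
  simp_rw [h1]
  rw [integral_finsetSum]
  · exact Finset.sum_congr rfl fun c _ => (integral_indicator_one (hB _ _)).symm
  · exact fun c _ => (integrable_const (1 : ℝ)).indicator (hB _ _)

theorem sum_zmod_ite (M : ℕ) [NeZero M] (a b : ℝ) :
    ∑ j : ZMod M, (a - if j ≠ 0 then b else 0) = M * a - (M - 1) * b := by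
  classical
  have h1 : ∀ j : ZMod M, (a - if j ≠ 0 then b else 0) = (a - b) + if j = 0 then b else 0 := by
    intro j
    by_cases hj : j = 0 <;> simp [hj]
  simp_rw [h1]
  rw [Finset.sum_add_distrib, Finset.sum_const, Finset.sum_ite_eq']
  simp only [Finset.card_univ, ZMod.card, nsmul_eq_mul, Finset.mem_univ, if_true]
  ring

open Classical in
theorem mass_cov [Fintype L] [Fintype P] (μ : Measure X) (M : ℕ) [NeZero M] (t : L)
    {B : L → P × ZMod M → P × ZMod M → Set X}
    (hB : ∀ s a b, b.2 ≠ a.2 + shift M t s → B s a b = ∅) :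
    mass μ B = ∑ s, ∑ j : ZMod M, ∑ c : P × P,
      μ.real (B s (c.1, j) (c.2, j + shift M t s)) := by
  unfold mass
  rw [Fintype.sum_prod_type]
  refine Finset.sum_congr rfl fun s _ => ?_
  simp only [Fintype.sum_prod_type]
  have h : ∀ (p : P) (j : ZMod M) (q : P), ∑ j' : ZMod M, μ.real (B s (p, j) (q, j')) =
      μ.real (B s (p, j) (q, j + shift M t s)) := by
    intro p j q
    refine Finset.sum_eq_single (j + shift M t s) (fun j' _ hj' => ?_) (fun h => absurd (Finset.mem_univ _) h)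
    rw [hB s (p, j) (q, j') hj']
    simp
  simp_rw [h]
  rw [Finset.sum_comm]

end PiFold

section PiFoldMain

variable {X L P : Type*} [MeasurableSpace X] [Fintype L] [Fintype P]
  {S : Sys X L P} {μ : Measure X} {ρ₀ ρ : X → Setoid P}

omit [Fintype L] [Fintype P] in
theorem wAct_cov (M : ℕ) (t : L) (u : List L) (z : X) :
    wAct (cov M S t) u z = wAct S u z := by
  induction u generalizing z with
  | nil => rfl
  | cons y ys ih => exact ih _

omit [Fintype L] [Fintype P] in
theorem reads_cov (M : ℕ) (t : L) (u : List L) (hu : t ∉ u) :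
    ∀ (z : X) (a b : P) (j : ZMod M), Reads S ρ₀ u z a b →
      Reads (cov M S t) (fun x => liftRel M (ρ₀ x)) u z (a, j) (b, j) := by
  induction u with
  | nil => exact fun z a b j h => ⟨rfl, h⟩
  | cons y ys ih =>
    rintro z a b j ⟨c, d, h1, h2, h3⟩
    have hy : y ≠ t := fun e => hu (e ▸ List.mem_cons_self)
    have hys : t ∉ ys := fun e => hu (List.mem_cons_of_mem _ e)
    refine ⟨(c, j), (d, j), ⟨rfl, h1⟩, ⟨?_, h2⟩, ih hys _ _ _ _ h3⟩
    simp [shift, hy]

/-- The fold of the cover, by the closure with tops at nonzero level designated. -/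
theorem closure_cov_eq [IsFiniteMeasure μ] (hS : S.Good μ) (t : L) (w : L → List L)
    (hρ : IsFold S ρ₀ ρ)
    (htop : ∀ p q, S.Tp t p q = ∅) (hw : ∀ s, t ∉ w s)
    (hcell : ∀ x s p q, x ∈ S.Tp s p q → ∃ a b, x ∈ S.Ed t p a ∧ S.act s x ∈ S.Ed t q b ∧
      Reads S ρ₀ (w s) (S.act t x) a b ∧ wAct S (w s) (S.act t x) = S.act t (S.act s x))
    (M : ℕ) [NeZero M] {ρt : X → Setoid (P × ZMod M)} {At : L → P × ZMod M → P × ZMod M → Set X}
    (C : IsClosure (cov M S t) μ (fun x => liftRel M (ρ₀ x)) ρt At) (x : X) :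
    ρt x = liftRel M (ρ x) := by
  -- the lift of the fold is fold closed on the cover
  have hlift : (cov M S t).FoldClosed fun x => liftRel M (ρ x) := by
    rintro x s ⟨p, j⟩ ⟨q, i⟩ ⟨p', j'⟩ ⟨q', i'⟩ ⟨h1, he⟩ ⟨h2, he'⟩
    have hc := hρ.closed x s p q p' q' he he'
    simp only at h1 h2
    constructor
    · rintro ⟨h3, h4⟩
      refine ⟨?_, hc.1 h4⟩
      simp only at h3 ⊢
      rw [h1, h2, h3]
    · rintro ⟨h3, h4⟩
      refine ⟨?_, hc.2 h4⟩
      simp only at h3 ⊢
      rw [h1, h2] at h3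
      exact add_right_cancel h3
  have hle : ∀ x, ρt x ≤ liftRel M (ρ x) :=
    C.min _ hlift fun x a b h => ⟨h.1, hρ.ge x h.2⟩
  -- the closure is fold closed
  have hfc : (cov M S t).FoldClosed ρt := by
    have htop' : ∀ a b, (cov M S t).Tp t a b = ∅ := by
      intro a b
      ext x
      simp [cov, htop]
    refine C.foldClosed_of_cells t w (fun a => (-a.2).val) ?_ htop' hw ?_ ?_
    · intro x a b h
      have := (hle x h).1
      simp only [this]
    · intro x s a b hs h
      have h1 : b.2 = a.2 + shift M t s := h.1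
      have h2 : shift M t s = 0 := by simp [shift, hs]
      simp only [h1, h2, add_zero]
    · rintro x s ⟨p, j⟩ ⟨q, i⟩ ⟨h1, hj, hT⟩
      obtain ⟨a, b, l, r, rd, hfib⟩ := hcell x s p q hT
      have hst : s ≠ t := by
        rintro rfl
        rw [htop] at hT
        exact notMem_empty _ hT
      have hs0 : shift M t s = 0 := by simp [shift, hst]
      have ht1 : shift M t t = 1 := by simp [shift]
      simp only [hs0, add_zero] at h1
      subst h1
      refine ⟨(a, i + 1), (b, i + 1), ⟨?_, l⟩, ⟨?_, r⟩, ?_, ?_, ?_⟩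
      · simp [ht1]
      · simp [ht1]
      · exact Reads.mono (S := cov M S t) (fun x => C.ge x) _ _ _ _
          (reads_cov M t _ (hw s) _ _ _ _ rd)
      · rw [wAct_cov]
        exact hfib
      · exact zmod_val_step M i hj
  -- conversely the lift is below the closure
  have hge : ∀ x, liftRel M (ρ x) ≤ ρt x := by
    let τ : X → Setoid P := fun x =>
      { r := fun p p' => ∀ j : ZMod M, ρt x (p, j) (p', j)
        iseqv := ⟨fun _ _ => Setoid.refl' _ _, fun h j => Setoid.symm' _ (h j),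
          fun h k j => Setoid.trans' _ (h j) (k j)⟩ }
    have hτ : S.FoldClosed τ := by
      intro x s p q p' q' he he'
      have key : ∀ j : ZMod M, ρt x (p, j) (p', j) ↔
          ρt (S.act s x) (q, j + shift M t s) (q', j + shift M t s) := fun j =>
        hfc x s (p, j) (q, j + shift M t s) (p', j) (q', j + shift M t s) ⟨rfl, he⟩ ⟨rfl, he'⟩
      constructor
      · intro h j
        have := (key (j - shift M t s)).1 (h _)
        simpa using this
      · intro h j
        exact (key j).2 (h _)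
    have hρτ := hρ.min τ hτ (fun x a b h j => C.ge x ⟨rfl, h⟩)
    rintro x ⟨p, j⟩ ⟨q, i⟩ ⟨h1, h2⟩
    simp only at h1 h2
    subst h1
    exact hρτ x h2 j
  exact le_antisymm (hle x) (hge x)


/-- Pointwise count of the alive edges at one level. -/
theorem alive_count {t : L} (M : ℕ) [NeZero M] {ρt : X → Setoid (P × ZMod M)}
    {At : L → P × ZMod M → P × ZMod M → Set X}
    (C : IsClosure (cov M S t) μ (fun x => liftRel M (ρ₀ x)) ρt At)
    (hρt : ∀ x, ρt x = liftRel M (ρ x)) (hS : S.Good μ) (x : X) (s : L) (j : ZMod M) :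
    (({c : P × P | x ∈ At s (c.1, j) (c.2, j + shift M t s)}).ncard : ℝ) =
      (numE S ρ s x : ℝ) - if j ≠ 0 then (numT S ρ s x : ℝ) else 0 := by
  classical
  have hact : (cov M S t).act s x = S.act s x := rfl
  set φ := clsPair (ρ x) (ρ (S.act s x)) with hφ
  have hrel : ∀ c c', φ c = φ c' → ρ x c.1 c'.1 ∧ ρ (S.act s x) c.2 c'.2 := by
    intro c c' h
    have h' := Prod.ext_iff.1 h
    exact ⟨Quotient.exact h'.1, Quotient.exact h'.2⟩
  have hrel' : ∀ c c', ρ x c.1 c'.1 → ρ (S.act s x) c.2 c'.2 → φ c = φ c' := by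
    intro c c' h1 h2
    exact Prod.ext (Quotient.sound h1) (Quotient.sound h2)
  have hρx : ∀ a b, ρ x a b → ρt x (a, j) (b, j) := fun a b h => by
    rw [hρt]
    exact ⟨rfl, h⟩
  -- injective on the alive edges
  have hinj : InjOn φ {c : P × P | x ∈ At s (c.1, j) (c.2, j + shift M t s)} := by
    intro c hc c' hc' h
    by_contra hne
    have hne' : ((c.1, j), (c.2, j + shift M t s)) ≠ ((c'.1, j), (c'.2, j + shift M t s)) := by
      intro he
      simp only [Prod.mk.injEq, and_true] at he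
      exact hne (Prod.ext he.1 he.2)
    exact C.noF x s _ _ _ _ hne' hc (Or.inl hc') (hρx _ _ (hrel c c' h).1)
  -- the image
  have himg : φ '' {c : P × P | x ∈ At s (c.1, j) (c.2, j + shift M t s)} =
      φ '' {c | x ∈ S.Ed s c.1 c.2} \ (if j ≠ 0 then φ '' {c | x ∈ S.Tp s c.1 c.2} else ∅) := by
    ext y
    constructor
    · rintro ⟨c, hc, rfl⟩
      refine ⟨⟨c, (C.subEd _ _ _ hc).2, rfl⟩, ?_⟩
      by_cases hj : j ≠ 0
      · rw [if_pos hj]
        rintro ⟨c₁, hc₁, he⟩
        have htop : x ∈ (cov M S t).Tp s (c₁.1, j) (c₁.2, j + shift M t s) := ⟨rfl, hj, hc₁⟩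
        have hne' : ((c.1, j), (c.2, j + shift M t s)) ≠ ((c₁.1, j), (c₁.2, j + shift M t s)) := by
          intro he'
          simp only [Prod.mk.injEq, and_true] at he'
          have hc' : x ∈ At s (c₁.1, j) (c₁.2, j + shift M t s) := by
            rw [← he'.1, ← he'.2]
            exact hc
          exact (disjoint_left.1 (C.disjTp _ _ _)) hc' htop
        exact C.noF x s _ _ _ _ hne' hc (Or.inr htop)
          (hρx _ _ (Setoid.symm' _ (hrel c₁ c he).1))
      · rw [if_neg hj]
        exact notMem_empty _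
    · rintro ⟨⟨c, hc, rfl⟩, hn⟩
      have hE : x ∈ (cov M S t).Ed s (c.1, j) (c.2, j + shift M t s) := ⟨rfl, hc⟩
      obtain ⟨a', b', hal, h1, h2⟩ := C.par x s _ _ hE
      rw [hρt] at h1
      rw [hact, hρt] at h2
      obtain ⟨p₁, j₁⟩ := a'
      obtain ⟨q₁, i₁⟩ := b'
      obtain ⟨hj1, hp1⟩ := h1
      obtain ⟨hi1, hq1⟩ := h2
      simp only at hj1 hi1 hp1 hq1
      subst hj1
      subst hi1
      have hsame : φ c = φ (p₁, q₁) := hrel' _ _ hp1 hq1
      rcases hal with hal | hal
      · exact ⟨(p₁, q₁), hal, hsame.symm⟩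
      · obtain ⟨_, hj, hT⟩ := hal
        exfalso
        apply hn
        simp only at hj
        rw [if_pos hj]
        exact ⟨(p₁, q₁), hT, hsame.symm⟩
  have hsub : φ '' {c | x ∈ S.Tp s c.1 c.2} ⊆ φ '' {c | x ∈ S.Ed s c.1 c.2} :=
    image_mono fun c hc => hS.tp_sub _ _ _ hc
  have hcard := hinj.ncard_image
  rw [← hcard, himg]
  by_cases hj : j ≠ 0
  · rw [if_pos hj, if_pos hj, Set.ncard_sdiff hsub (Set.toFinite _), Nat.cast_sub
      (Set.ncard_le_ncard hsub (Set.toFinite _))]
    rfl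
  · rw [if_neg hj, if_neg hj, sdiff_empty, sub_zero]
    rfl

/-- The count for one `M`. -/
theorem pi_fold_M [IsFiniteMeasure μ] (hS : S.Good μ) (t : L) (w : L → List L)
    (hρ₀ : MeasRel ρ₀) (hρ : IsFold S ρ₀ ρ)
    (htop : ∀ p q, S.Tp t p q = ∅) (hw : ∀ s, t ∉ w s)
    (hcell : ∀ x s p q, x ∈ S.Tp s p q → ∃ a b, x ∈ S.Ed t p a ∧ S.act s x ∈ S.Ed t q b ∧
      Reads S ρ₀ (w s) (S.act t x) a b ∧ wAct S (w s) (S.act t x) = S.act t (S.act s x))
    (M : ℕ) [NeZero M] :
    M * edgeMass μ S ρ - (M - 1) * topMass μ S ρ - M * Vol μ ρ ≤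
      M * mass μ S.Ed - (M - 1) * mass μ S.Tp - M * Vol μ ρ₀ := by
  classical
  obtain ⟨ρt, At, C⟩ := exists_closure (S := cov M S t) (μ := μ) (cov_good M hS t) (hρ₀.liftRel M)
  have hρt : ∀ x, ρt x = liftRel M (ρ x) :=
    closure_cov_eq hS t w hρ htop hw hcell M C
  have hcost := C.cost
  have hV1 : Vol μ ρt = M * Vol μ ρ := by
    rw [show ρt = fun x => liftRel M (ρ x) from funext hρt, vol_liftRel]
  have hV0 := vol_liftRel μ ρ₀ M
  -- mass of the alive edges
  have hA : mass μ At = M * edgeMass μ S ρ - (M - 1) * topMass μ S ρ := by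
    rw [mass_cov μ M t (B := At) ?_]
    · have key : ∀ (s : L) (j : ZMod M), ∑ c : P × P,
          μ.real (At s (c.1, j) (c.2, j + shift M t s)) =
          (∫ x, (numE S ρ s x : ℝ) ∂μ) - if j ≠ 0 then (∫ x, (numT S ρ s x : ℝ) ∂μ) else 0 := by
        intro s j
        have h1 := sum_real_eq_integral_ncard μ (B := fun p q => At s (p, j) (q, j + shift M t s))
          (fun p q => C.measA _ _ _)
        rw [h1]
        simp_rw [alive_count M C hρt hS _ s j]
        have hE : Integrable (fun x => (numE S ρ s x : ℝ)) μ :=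
          integrable_numPairs hρ.measρ (S.act s) (hS.measEd s)
        have hT : Integrable (fun x => (numT S ρ s x : ℝ)) μ :=
          integrable_numPairs hρ.measρ (S.act s) (hS.measTp s)
        by_cases hj : j ≠ 0
        · simp only [if_pos hj]
          exact integral_sub hE hT
        · simp only [if_neg hj, sub_zero]
      simp_rw [key, sum_zmod_ite]
      unfold edgeMass topMass
      rw [Finset.mul_sum, Finset.mul_sum, Finset.sum_sub_distrib]
    · intro s a b hab
      ext x
      simp only [mem_empty_iff_false, iff_false]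
      intro hx
      exact hab (C.subEd _ _ _ hx).1
  -- mass of the start
  have hE : mass μ (fun s a b => (cov M S t).Ed s a b \ (cov M S t).Tp s a b) =
      M * mass μ S.Ed - (M - 1) * mass μ S.Tp := by
    rw [mass_cov μ M t ?_]
    · have key : ∀ (s : L) (j : ZMod M), ∑ c : P × P,
          μ.real ((cov M S t).Ed s (c.1, j) (c.2, j + shift M t s) \
            (cov M S t).Tp s (c.1, j) (c.2, j + shift M t s)) =
          (∑ c : P × P, μ.real (S.Ed s c.1 c.2)) -
            if j ≠ 0 then (∑ c : P × P, μ.real (S.Tp s c.1 c.2)) else 0 := by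
        intro s j
        by_cases hj : j ≠ 0
        · rw [if_pos hj, ← Finset.sum_sub_distrib]
          refine Finset.sum_congr rfl fun c _ => ?_
          have : (cov M S t).Ed s (c.1, j) (c.2, j + shift M t s) \
              (cov M S t).Tp s (c.1, j) (c.2, j + shift M t s) =
              S.Ed s c.1 c.2 \ S.Tp s c.1 c.2 := by
            ext x
            simp [cov, hj]
          rw [this]
          exact measureReal_sdiff (hS.tp_sub _ _ _) (hS.measTp _ _ _)
        · rw [if_neg hj, sub_zero]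
          refine Finset.sum_congr rfl fun c _ => ?_
          have : (cov M S t).Ed s (c.1, j) (c.2, j + shift M t s) \
              (cov M S t).Tp s (c.1, j) (c.2, j + shift M t s) = S.Ed s c.1 c.2 := by
            ext x
            simp [cov, not_not.1 hj]
          rw [this]
      simp_rw [key, sum_zmod_ite]
      have h1 : ∀ B : L → P → P → Set X,
          mass μ B = ∑ s, ∑ c : P × P, μ.real (B s c.1 c.2) := by
        intro B
        unfold mass
        rw [Fintype.sum_prod_type]
      rw [h1 S.Ed, h1 S.Tp, Finset.mul_sum, Finset.mul_sum, Finset.sum_sub_distrib]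
    · intro s a b hab
      ext x
      simp only [mem_empty_iff_false, iff_false]
      rintro ⟨hx, _⟩
      exact hab hx.1
  rw [hA, hV1, hE, hV0] at hcost
  linarith

/-- **Pi lemma (any depth).** `K⁺ = S` with relation `ρ₀` (the seeds) and designated tops `Tp`
(distinct edges, each top with a boundary path: left leg `t`, bottom `w s` read modulo `ρ₀`, right
leg `t`). For the fold `ρ`: `E' - T' - V' ≤ E - F - V₀`, where `E'`, `T'` are the masses of the edge
classes and of the top classes of the quotient, `V' = Vol ρ`, `E = mass Ed`, `F = mass Tp`,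
`V₀ = Vol ρ₀`. -/
theorem pi_fold [IsFiniteMeasure μ] (hS : S.Good μ) (t : L) (w : L → List L)
    (hρ₀ : MeasRel ρ₀) (hρ : IsFold S ρ₀ ρ)
    (htop : ∀ p q, S.Tp t p q = ∅) (hw : ∀ s, t ∉ w s)
    (hcell : ∀ x s p q, x ∈ S.Tp s p q → ∃ a b, x ∈ S.Ed t p a ∧ S.act s x ∈ S.Ed t q b ∧
      Reads S ρ₀ (w s) (S.act t x) a b ∧ wAct S (w s) (S.act t x) = S.act t (S.act s x)) :
    edgeMass μ S ρ - topMass μ S ρ - Vol μ ρ ≤ mass μ S.Ed - mass μ S.Tp - Vol μ ρ₀ := by
  by_contra hc
  push Not at hc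
  set D := (edgeMass μ S ρ - topMass μ S ρ - Vol μ ρ) - (mass μ S.Ed - mass μ S.Tp - Vol μ ρ₀)
    with hD
  have hDpos : 0 < D := by rw [hD]; linarith
  have hT0 : 0 ≤ topMass μ S ρ := by
    unfold topMass
    exact Finset.sum_nonneg fun s _ => integral_nonneg fun x => Nat.cast_nonneg _
  obtain ⟨M, hM⟩ := exists_nat_gt (mass μ S.Tp / D)
  have hMpos : 0 < M + 1 := Nat.succ_pos M
  have : NeZero (M + 1) := ⟨Nat.succ_ne_zero M⟩
  have key := pi_fold_M hS t w hρ₀ hρ htop hw hcell (M + 1)
  push_cast at key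
  have h1 : mass μ S.Tp < (M + 1 : ℝ) * D := by
    have := (div_lt_iff₀ hDpos).1 hM
    nlinarith
  have h2 : (M + 1 : ℝ) * D = (M + 1 : ℝ) * (edgeMass μ S ρ - topMass μ S ρ - Vol μ ρ) -
      (M + 1 : ℝ) * (mass μ S.Ed - mass μ S.Tp - Vol μ ρ₀) := by
    rw [hD]; ring
  nlinarith

end PiFoldMain

end Crest.Agent.NoFixedPrice.FoldCore
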