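import Mathlib

/-!
# Row 191: covariant operator families on `ℓ²(Γ × I)` and their trace

The `L²` machinery behind the Morse inequality of the 2-complexes:
* `H Γ I`: the Hilbert space `ℓ²(Γ × I)`, basis `δ p`, coordinates `c f p`.
* `coef T p q`: matrix coefficient.
* `IsFam A`: a bounded, measurable, re-basing-covariant family of operators indexed by `x : X`.
* `Tr A`: the trace `∑ a, ∫ x, coef (A x) (1,a) (1,a) ∂μ`; `trace_comm : Tr (B ∘ A) = Tr (A ∘ B)`.
-/

set_option autoImplicit false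

namespace Crest.Agent.NoFixedPrice.L2

open MeasureTheory Filter Topology
open scoped ENNReal

noncomputable section

/-- `ℓ²(Γ × I)`. -/
def H (Γ I : Type*) : Type _ := lp (fun _ : Γ × I => ℝ) 2

namespace H

variable {Γ I : Type*}

instance : NormedAddCommGroup (H Γ I) :=
  inferInstanceAs (NormedAddCommGroup (lp (fun _ : Γ × I => ℝ) 2))
instance : InnerProductSpace ℝ (H Γ I) :=
  inferInstanceAs (InnerProductSpace ℝ (lp (fun _ : Γ × I => ℝ) 2))
instance : CompleteSpace (H Γ I) :=
  inferInstanceAs (CompleteSpace (lp (fun _ : Γ × I => ℝ) 2))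

/-- The coordinate of a vector. -/
def c (f : H Γ I) (p : Γ × I) : ℝ := (show lp (fun _ : Γ × I => ℝ) 2 from f) p

open Classical in
/-- The basis vector at `p`. -/
def δ (p : Γ × I) : H Γ I := lp.single (E := fun _ : Γ × I => ℝ) 2 p (1 : ℝ)

theorem hasSum_inner (f g : H Γ I) : HasSum (fun r => c f r * c g r) (inner ℝ f g) := by
  have h := lp.hasSum_inner (𝕜 := ℝ) (G := fun _ : Γ × I => ℝ)
    (show lp (fun _ : Γ × I => ℝ) 2 from f) (show lp (fun _ : Γ × I => ℝ) 2 from g)
  have h2 : (fun r => c f r * c g r) = fun i => inner ℝ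
      ((show lp (fun _ : Γ × I => ℝ) 2 from f) i) ((show lp (fun _ : Γ × I => ℝ) 2 from g) i) := by
    funext r
    simp [c, mul_comm]
  rw [h2]
  exact h

theorem inner_δ_right (f : H Γ I) (p : Γ × I) : inner ℝ f (δ p) = c f p := by
  classical
  have h := lp.inner_single_right (𝕜 := ℝ) (G := fun _ : Γ × I => ℝ) p (1 : ℝ)
    (show lp (fun _ : Γ × I => ℝ) 2 from f)
  have h2 : inner ℝ f (δ p) = inner ℝ (show lp (fun _ : Γ × I => ℝ) 2 from f)
      (lp.single (E := fun _ : Γ × I => ℝ) 2 p (1 : ℝ)) := by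
    unfold δ
    congr!
  rw [h2, h]
  simp [c]

theorem inner_δ_left (f : H Γ I) (p : Γ × I) : inner ℝ (δ p) f = c f p := by
  rw [real_inner_comm, inner_δ_right]

theorem c_δ_self (p : Γ × I) : c (δ p) p = 1 := by
  classical
  unfold c δ
  exact lp.single_apply_self (E := fun _ : Γ × I => ℝ) 2 p (1 : ℝ)

theorem c_δ_ne {p r : Γ × I} (h : r ≠ p) : c (δ p) r = 0 := by
  classical
  unfold c δ
  simpa using lp.single_apply_ne (E := fun _ : Γ × I => ℝ) 2 p (1 : ℝ) h

theorem norm_δ (p : Γ × I) : ‖(δ p : H Γ I)‖ = 1 := by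
  have h := inner_δ_left (δ p : H Γ I) p
  rw [c_δ_self, real_inner_self_eq_norm_sq] at h
  have h2 : (0 : ℝ) ≤ ‖(δ p : H Γ I)‖ := norm_nonneg _
  nlinarith

theorem abs_c_le (f : H Γ I) (p : Γ × I) : |c f p| ≤ ‖f‖ := by
  rw [← inner_δ_left]
  have := abs_real_inner_le_norm (δ p : H Γ I) f
  simpa [norm_δ] using this

theorem ext {f g : H Γ I} (h : ∀ p, c f p = c g p) : f = g := by
  have : ∀ p, inner ℝ (f - g) (δ p) = 0 := by
    intro p
    rw [inner_sub_left, inner_δ_right, inner_δ_right, h, sub_self]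
  have h2 := hasSum_inner (f - g) (f - g)
  have h3 : (fun r => c (f - g) r * c (f - g) r) = fun _ => 0 := by
    funext r
    rw [← inner_δ_right, this r, zero_mul]
  rw [h3] at h2
  have h4 := h2.unique hasSum_zero
  exact sub_eq_zero.mp (inner_self_eq_zero (𝕜 := ℝ).mp h4)

theorem c_add (f g : H Γ I) (p : Γ × I) : c (f + g) p = c f p + c g p := by
  rw [← inner_δ_left, inner_add_right, inner_δ_left, inner_δ_left]

theorem c_sub (f g : H Γ I) (p : Γ × I) : c (f - g) p = c f p - c g p := by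
  rw [← inner_δ_left, inner_sub_right, inner_δ_left, inner_δ_left]

theorem c_zero (p : Γ × I) : c (0 : H Γ I) p = 0 := by
  rw [← inner_δ_left, inner_zero_right]

theorem c_smul (a : ℝ) (f : H Γ I) (p : Γ × I) : c (a • f) p = a * c f p := by
  rw [← inner_δ_left, inner_smul_right, inner_δ_left]

theorem continuous_c (p : Γ × I) : Continuous fun f : H Γ I => c f p := by
  have : (fun f : H Γ I => c f p) = fun f => inner ℝ (δ p) f := by
    funext f; rw [inner_δ_left]
  rw [this]
  exact continuous_const.inner continuous_id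

end H

open H

variable {Γ I J K : Type*}

/-- Matrix coefficient. -/
def coef (T : H Γ I →L[ℝ] H Γ J) (p : Γ × J) (q : Γ × I) : ℝ := c (T (δ q)) p

theorem coef_adjoint (T : H Γ I →L[ℝ] H Γ J) (p : Γ × I) (q : Γ × J) :
    coef (ContinuousLinearMap.adjoint T) p q = coef T q p := by
  unfold coef
  rw [← inner_δ_left, ContinuousLinearMap.adjoint_inner_right, inner_δ_right]

theorem hasSum_coef_comp (B : H Γ J →L[ℝ] H Γ K) (A : H Γ I →L[ℝ] H Γ J) (p : Γ × K) (q : Γ × I) :
    HasSum (fun r => coef B p r * coef A r q) (coef (B.comp A) p q) := by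
  have h := hasSum_inner (ContinuousLinearMap.adjoint B (δ p)) (A (δ q))
  rw [ContinuousLinearMap.adjoint_inner_left, inner_δ_left] at h
  have h2 : (fun r => coef B p r * coef A r q) =
      fun r => c (ContinuousLinearMap.adjoint B (δ p)) r * c (A (δ q)) r := by
    funext r
    have := coef_adjoint B r p
    unfold coef at this ⊢
    rw [this]
  rw [h2]
  exact h

theorem abs_coef_le (T : H Γ I →L[ℝ] H Γ J) (p : Γ × J) (q : Γ × I) : |coef T p q| ≤ ‖T‖ := by
  refine (abs_c_le _ _).trans ?_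
  have := T.le_opNorm (δ q)
  simpa [norm_δ] using this

theorem sum_coef_sq_col_le (T : H Γ I →L[ℝ] H Γ J) (q : Γ × I) (s : Finset (Γ × J)) :
    ∑ r ∈ s, coef T r q ^ 2 ≤ ‖T‖ ^ 2 := by
  have h := hasSum_inner (T (δ q)) (T (δ q))
  rw [real_inner_self_eq_norm_sq] at h
  have h2 : ∑ r ∈ s, c (T (δ q)) r * c (T (δ q)) r ≤ ‖T (δ q)‖ ^ 2 :=
    sum_le_hasSum s (fun _ _ => mul_self_nonneg _) h
  have h3 : ‖T (δ q)‖ ≤ ‖T‖ := by
    have := T.le_opNorm (δ q)
    simpa [norm_δ] using this
  have h4 : ‖T (δ q)‖ ^ 2 ≤ ‖T‖ ^ 2 := by gcongr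
  refine le_trans (le_of_eq ?_) (h2.trans h4)
  refine Finset.sum_congr rfl fun r _ => ?_
  unfold coef
  ring

theorem sum_coef_sq_row_le (T : H Γ I →L[ℝ] H Γ J) (p : Γ × J) (s : Finset (Γ × I)) :
    ∑ r ∈ s, coef T p r ^ 2 ≤ ‖T‖ ^ 2 := by
  have h := sum_coef_sq_col_le (ContinuousLinearMap.adjoint T) p s
  rw [ContinuousLinearMap.adjoint.norm_map] at h
  refine le_trans (le_of_eq ?_) h
  refine Finset.sum_congr rfl fun r _ => ?_
  rw [coef_adjoint]

@[simp] theorem coef_add (A B : H Γ I →L[ℝ] H Γ J) (p : Γ × J) (q : Γ × I) :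
    coef (A + B) p q = coef A p q + coef B p q := by
  simp [coef, c_add]

@[simp] theorem coef_sub (A B : H Γ I →L[ℝ] H Γ J) (p : Γ × J) (q : Γ × I) :
    coef (A - B) p q = coef A p q - coef B p q := by
  simp [coef, c_sub]

@[simp] theorem coef_smul (a : ℝ) (A : H Γ I →L[ℝ] H Γ J) (p : Γ × J) (q : Γ × I) :
    coef (a • A) p q = a * coef A p q := by
  simp [coef, c_smul]

theorem coef_one_self (q : Γ × I) : coef (1 : H Γ I →L[ℝ] H Γ I) q q = 1 := by
  simp [coef, c_δ_self]

theorem coef_one_ne {p q : Γ × I} (h : p ≠ q) : coef (1 : H Γ I →L[ℝ] H Γ I) p q = 0 := by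
  simp [coef, c_δ_ne h]

section Fam

variable [Group Γ] {X : Type*} [MeasurableSpace X] [MulAction Γ X]

/-- A bounded, measurable, re-basing covariant family of operators. -/
structure IsFam (A : X → H Γ I →L[ℝ] H Γ J) : Prop where
  bdd : ∃ C, ∀ x, ‖A x‖ ≤ C
  meas : ∀ p q, Measurable fun x => coef (A x) p q
  cov : ∀ (γ : Γ) x p q, coef (A (γ • x)) p q = coef (A x) (p.1 * γ, p.2) (q.1 * γ, q.2)

namespace IsFam

variable {A A' : X → H Γ I →L[ℝ] H Γ J} {B : X → H Γ J →L[ℝ] H Γ K}

theorem add (hA : IsFam A) (hA' : IsFam A') : IsFam fun x => A x + A' x := by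
  obtain ⟨C, hC⟩ := hA.bdd
  obtain ⟨C', hC'⟩ := hA'.bdd
  refine ⟨⟨C + C', fun x => (norm_add_le _ _).trans (add_le_add (hC x) (hC' x))⟩, ?_, ?_⟩
  · intro p q
    simp only [coef_add]
    exact (hA.meas p q).add (hA'.meas p q)
  · intro γ x p q
    simp [hA.cov, hA'.cov]

theorem sub (hA : IsFam A) (hA' : IsFam A') : IsFam fun x => A x - A' x := by
  obtain ⟨C, hC⟩ := hA.bdd
  obtain ⟨C', hC'⟩ := hA'.bdd
  refine ⟨⟨C + C', fun x => (norm_sub_le _ _).trans (add_le_add (hC x) (hC' x))⟩, ?_, ?_⟩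
  · intro p q
    simp only [coef_sub]
    exact (hA.meas p q).sub (hA'.meas p q)
  · intro γ x p q
    simp [hA.cov, hA'.cov]

theorem smul (a : ℝ) (hA : IsFam A) : IsFam fun x => a • A x := by
  obtain ⟨C, hC⟩ := hA.bdd
  refine ⟨⟨|a| * C, fun x => ?_⟩, ?_, ?_⟩
  · rw [norm_smul, Real.norm_eq_abs]
    exact mul_le_mul_of_nonneg_left (hC x) (abs_nonneg a)
  · intro p q
    simpa using (hA.meas p q).const_mul a
  · intro γ x p q
    simp [hA.cov]

theorem one : IsFam (fun _ : X => (1 : H Γ I →L[ℝ] H Γ I)) := by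
  classical
  refine ⟨⟨1, fun x => ContinuousLinearMap.norm_id_le⟩, fun p q => measurable_const, ?_⟩
  intro γ x p q
  by_cases h : p = q
  · subst h
    rw [coef_one_self, coef_one_self]
  · rw [coef_one_ne h, coef_one_ne]
    intro h2
    apply h
    have h3 := congrArg Prod.fst h2
    have h4 := congrArg Prod.snd h2
    simp only at h3 h4
    exact Prod.ext (mul_right_cancel h3) h4

theorem zero : IsFam (fun _ : X => (0 : H Γ I →L[ℝ] H Γ J)) := by
  refine ⟨⟨0, fun x => by simp⟩, fun p q => ?_, ?_⟩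
  · simp only [coef, zero_apply, c_zero]
    exact measurable_const
  · intro γ x p q
    simp [coef, c_zero]

theorem adjoint (hA : IsFam A) : IsFam fun x => ContinuousLinearMap.adjoint (A x) := by
  obtain ⟨C, hC⟩ := hA.bdd
  refine ⟨⟨C, fun x => ?_⟩, ?_, ?_⟩
  · rw [ContinuousLinearMap.adjoint.norm_map]; exact hC x
  · intro p q
    simp only [coef_adjoint]
    exact hA.meas q p
  · intro γ x p q
    simp only [coef_adjoint]
    exact hA.cov γ x q p

/-- Pointwise limits of families along `ℕ`, with a uniform bound. -/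
theorem of_tendsto {Fn : ℕ → X → H Γ I →L[ℝ] H Γ J} {A : X → H Γ I →L[ℝ] H Γ J}
    (hF : ∀ n, IsFam (Fn n)) (hlim : ∀ x v, Tendsto (fun n => Fn n x v) atTop (𝓝 (A x v)))
    (hbdd : ∃ C, ∀ x, ‖A x‖ ≤ C) : IsFam A := by
  have hc : ∀ x p q, Tendsto (fun n => coef (Fn n x) p q) atTop (𝓝 (coef (A x) p q)) := by
    intro x p q
    exact ((continuous_c p).tendsto _).comp (hlim x (δ q))
  refine ⟨hbdd, ?_, ?_⟩
  · intro p q
    exact measurable_of_tendsto_metrizable (fun n => (hF n).meas p q)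
      (tendsto_pi_nhds.mpr fun x => hc x p q)
  · intro γ x p q
    refine tendsto_nhds_unique (hc (γ • x) p q) ?_
    simp_rw [(hF _).cov γ x p q]
    exact hc x _ _

variable [Countable Γ] [Finite J]

theorem comp (hB : IsFam B) (hA : IsFam A) : IsFam fun x => (B x).comp (A x) := by
  obtain ⟨C, hC⟩ := hA.bdd
  obtain ⟨C', hC'⟩ := hB.bdd
  have : Countable (Γ × J) := inferInstance
  refine ⟨⟨C' * C, fun x => ?_⟩, ?_, ?_⟩
  · refine (ContinuousLinearMap.opNorm_comp_le _ _).trans ?_
    exact mul_le_mul (hC' x) (hC x) (norm_nonneg _) ((norm_nonneg _).trans (hC' x))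
  · intro p q
    have hlim : ∀ x, Tendsto (fun s : Finset (Γ × J) => ∑ r ∈ s, coef (B x) p r * coef (A x) r q)
        atTop (𝓝 (coef ((B x).comp (A x)) p q)) := fun x => hasSum_coef_comp _ _ p q
    refine measurable_of_tendsto_metrizable' atTop (f := fun (s : Finset (Γ × J)) x =>
      ∑ r ∈ s, coef (B x) p r * coef (A x) r q) (fun s => ?_) (tendsto_pi_nhds.mpr hlim)
    exact Finset.measurable_sum _ fun r _ => (hB.meas p r).mul (hA.meas r q)
  · intro γ x p q
    have h1 := hasSum_coef_comp (B (γ • x)) (A (γ • x)) p q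
    have h2 := hasSum_coef_comp (B x) (A x) (p.1 * γ, p.2) (q.1 * γ, q.2)
    refine h1.unique ?_
    let e : Γ × J ≃ Γ × J := (Equiv.mulRight γ).prodCongr (Equiv.refl J)
    have h3 := (e.hasSum_iff (f := fun r => coef (B x) (p.1 * γ, p.2) r *
      coef (A x) r (q.1 * γ, q.2))).mpr h2
    have h4 : (fun r => coef (B x) (p.1 * γ, p.2) (e r) * coef (A x) (e r) (q.1 * γ, q.2)) =
        fun r => coef (B (γ • x)) p r * coef (A (γ • x)) r q := by
      funext r
      rw [hB.cov γ x p r, hA.cov γ x r q]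
      rfl
    have h5 : HasSum (fun r => coef (B (γ • x)) p r * coef (A (γ • x)) r q)
        (coef ((B x).comp (A x)) (p.1 * γ, p.2) (q.1 * γ, q.2)) := by
      rw [← h4]
      exact h3
    exact h5

end IsFam

theorem isFam_pow {S : X → H Γ I →L[ℝ] H Γ I} [Countable Γ] [Finite I] (hS : IsFam S) (n : ℕ) :
    IsFam fun x => S x ^ n := by
  induction n with
  | zero => simpa using IsFam.one
  | succ n ih =>
    have h : (fun x => S x ^ (n + 1)) = fun x => (S x ^ n).comp (S x) := by
      funext x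
      rw [pow_succ]
      rfl
    rw [h]
    exact ih.comp hS

section Trace

variable (μ : Measure X)

/-- The trace of an endomorphism family. -/
def Tr [Fintype I] (A : X → H Γ I →L[ℝ] H Γ I) : ℝ := ∑ a, ∫ x, coef (A x) (1, a) (1, a) ∂μ

variable [IsProbabilityMeasure μ]

theorem integrable_coef {A : X → H Γ I →L[ℝ] H Γ J} (hA : IsFam A) (p : Γ × J) (q : Γ × I) :
    Integrable (fun x => coef (A x) p q) μ := by
  obtain ⟨C, hC⟩ := hA.bdd
  refine Integrable.of_bound (hA.meas p q).aestronglyMeasurable C (ae_of_all _ fun x => ?_)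
  rw [Real.norm_eq_abs]
  exact (abs_coef_le _ _ _).trans (hC x)

/-- Column sums of squares are summable after integration. -/
theorem summable_int_col_sq {A : X → H Γ I →L[ℝ] H Γ J} (hA : IsFam A) (q : Γ × I) :
    Summable fun r => ∫ x, coef (A x) r q ^ 2 ∂μ := by
  obtain ⟨C, hC⟩ := hA.bdd
  have hint : ∀ r, Integrable (fun x => coef (A x) r q ^ 2) μ := by
    intro r
    refine Integrable.of_bound ((hA.meas r q).pow_const 2).aestronglyMeasurable (C ^ 2)
      (ae_of_all _ fun x => ?_)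
    rw [Real.norm_eq_abs, abs_of_nonneg (sq_nonneg _)]
    have h1 := abs_coef_le (A x) r q
    have h2 := hC x
    have h3 : |coef (A x) r q| ≤ C := h1.trans h2
    calc coef (A x) r q ^ 2 = |coef (A x) r q| ^ 2 := (sq_abs _).symm
      _ ≤ C ^ 2 := by gcongr
  refine summable_of_sum_le (c := C ^ 2) (fun r => integral_nonneg fun x => sq_nonneg _) ?_
  intro s
  rw [← integral_finsetSum _ fun r _ => hint r]
  have h : ∀ x, ∑ r ∈ s, coef (A x) r q ^ 2 ≤ C ^ 2 := fun x => by
    refine (sum_coef_sq_col_le (A x) q s).trans ?_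
    have := hC x
    have h0 := norm_nonneg (A x)
    gcongr
  calc ∫ x, ∑ r ∈ s, coef (A x) r q ^ 2 ∂μ ≤ ∫ _x, C ^ 2 ∂μ := by
        refine integral_mono (integrable_finsetSum _ fun r _ => hint r) (integrable_const _) h
    _ = C ^ 2 := by simp

/-- Row sums of squares are summable after integration. -/
theorem summable_int_row_sq {A : X → H Γ I →L[ℝ] H Γ J} (hA : IsFam A) (p : Γ × J) :
    Summable fun r => ∫ x, coef (A x) p r ^ 2 ∂μ := by
  have := summable_int_col_sq μ hA.adjoint p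
  simpa [coef_adjoint] using this

/-- Integrated product sums. -/
theorem hasSum_integral_coef_comp [Countable Γ] [Finite J] {A : X → H Γ I →L[ℝ] H Γ J}
    {B : X → H Γ J →L[ℝ] H Γ K}
    (hB : IsFam B) (hA : IsFam A) (p : Γ × K) (q : Γ × I) :
    HasSum (fun r => ∫ x, coef (B x) p r * coef (A x) r q ∂μ)
      (∫ x, coef ((B x).comp (A x)) p q ∂μ) := by
  have hint : ∀ r, Integrable (fun x => coef (B x) p r * coef (A x) r q) μ := by
    intro r
    obtain ⟨C, hC⟩ := hB.bdd
    refine (integrable_coef μ hA r q).bdd_mul (c := C) (hB.meas p r).aestronglyMeasurable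
      (ae_of_all _ fun x => ?_)
    rw [Real.norm_eq_abs]
    exact (abs_coef_le _ _ _).trans (hC x)
  have hint2 : ∀ (A : X → H Γ I →L[ℝ] H Γ J) (hA : IsFam A) (r) (q),
      Integrable (fun x => coef (A x) r q ^ 2) μ := by
    intro A hA r q
    obtain ⟨C, hC⟩ := hA.bdd
    refine Integrable.of_bound ((hA.meas r q).pow_const 2).aestronglyMeasurable (C ^ 2)
      (ae_of_all _ fun x => ?_)
    rw [Real.norm_eq_abs, abs_of_nonneg (sq_nonneg _)]
    have h3 : |coef (A x) r q| ≤ C := (abs_coef_le _ _ _).trans (hC x)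
    calc coef (A x) r q ^ 2 = |coef (A x) r q| ^ 2 := (sq_abs _).symm
      _ ≤ C ^ 2 := by gcongr
  have hint3 : ∀ r, Integrable (fun x => coef (B x) p r ^ 2) μ := by
    intro r
    obtain ⟨C, hC⟩ := hB.bdd
    refine Integrable.of_bound ((hB.meas p r).pow_const 2).aestronglyMeasurable (C ^ 2)
      (ae_of_all _ fun x => ?_)
    rw [Real.norm_eq_abs, abs_of_nonneg (sq_nonneg _)]
    have h3 : |coef (B x) p r| ≤ C := (abs_coef_le _ _ _).trans (hC x)
    calc coef (B x) p r ^ 2 = |coef (B x) p r| ^ 2 := (sq_abs _).symm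
      _ ≤ C ^ 2 := by gcongr
  have hsum : Summable fun r => ∫ x, ‖coef (B x) p r * coef (A x) r q‖ ∂μ := by
    have h1 := (summable_int_row_sq μ hB p).add (summable_int_col_sq μ hA q)
    refine Summable.of_nonneg_of_le (fun r => integral_nonneg fun x => norm_nonneg _) (fun r => ?_) h1
    rw [← integral_add (hint3 r) (hint2 A hA r q)]
    refine integral_mono (hint r).norm ((hint3 r).add (hint2 A hA r q)) fun x => ?_
    simp only [Real.norm_eq_abs, abs_mul]
    nlinarith [sq_nonneg (|coef (B x) p r| - |coef (A x) r q|), sq_abs (coef (B x) p r),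
      sq_abs (coef (A x) r q), abs_nonneg (coef (B x) p r), abs_nonneg (coef (A x) r q)]
  have h := hasSum_integral_of_summable_integral_norm hint hsum
  have h2 : (fun x => ∑' r, coef (B x) p r * coef (A x) r q) =
      fun x => coef ((B x).comp (A x)) p q := by
    funext x
    exact (hasSum_coef_comp (B x) (A x) p q).tsum_eq
  rw [h2] at h
  exact h

/-- **Trace property**, by mass transport. -/
theorem trace_comm [Countable Γ] [Fintype I] [Fintype J]
    (hμ : ∀ g : Γ, MeasurePreserving (fun x : X => g • x) μ μ)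
    {A : X → H Γ I →L[ℝ] H Γ J} {B : X → H Γ J →L[ℝ] H Γ I} (hA : IsFam A) (hB : IsFam B) :
    Tr μ (fun x => (B x).comp (A x)) = Tr μ (fun x => (A x).comp (B x)) := by
  classical
  -- the common value of the two sums over `h : Γ`
  let Θ : Γ → ℝ := fun h => ∑ a, ∑ b, ∫ x, coef (B x) (1, a) (h, b) * coef (A x) (h, b) (1, a) ∂μ
  have hL : HasSum Θ (Tr μ fun x => (B x).comp (A x)) := by
    refine hasSum_sum (f := fun a h =>
      ∑ b, ∫ x, coef (B x) (1, a) (h, b) * coef (A x) (h, b) (1, a) ∂μ) fun a _ => ?_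
    exact (hasSum_integral_coef_comp μ hB hA (1, a) (1, a)).prod_fiberwise
      fun h => hasSum_fintype _
  have hR : HasSum Θ (Tr μ fun x => (A x).comp (B x)) := by
    have h0 : HasSum (fun k : Γ => ∑ b, ∑ a, ∫ x, coef (A x) (1, b) (k, a) * coef (B x) (k, a) (1, b) ∂μ)
        (Tr μ fun x => (A x).comp (B x)) := by
      refine hasSum_sum (f := fun b k =>
        ∑ a, ∫ x, coef (A x) (1, b) (k, a) * coef (B x) (k, a) (1, b) ∂μ) fun b _ => ?_
      exact (hasSum_integral_coef_comp μ hA hB (1, b) (1, b)).prod_fiberwise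
        fun h => hasSum_fintype _
    have h1 := (Equiv.inv Γ).hasSum_iff.mpr h0
    have h2 : ((fun k : Γ => ∑ b, ∑ a, ∫ x, coef (A x) (1, b) (k, a) * coef (B x) (k, a) (1, b) ∂μ) ∘
        (Equiv.inv Γ)) = Θ := by
      funext h
      simp only [Function.comp, Equiv.inv_apply, Θ]
      rw [Finset.sum_comm]
      refine Finset.sum_congr rfl fun a _ => Finset.sum_congr rfl fun b _ => ?_
      have hmeas : Measurable fun x => coef (B x) (1, a) (h, b) * coef (A x) (h, b) (1, a) :=
        (hB.meas _ _).mul (hA.meas _ _)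
      have h3 := integral_map (μ := μ) (hμ h⁻¹).measurable.aemeasurable
        (f := fun x => coef (B x) (1, a) (h, b) * coef (A x) (h, b) (1, a))
        hmeas.aestronglyMeasurable
      rw [(hμ h⁻¹).map_eq] at h3
      rw [h3]
      refine integral_congr_ae (ae_of_all _ fun y => ?_)
      simp only
      rw [hB.cov h⁻¹ y, hA.cov h⁻¹ y]
      simp [mul_comm]
    rw [h2] at h1
    exact h1
  exact hL.unique hR

end Trace

end Fam

end

end Crest.Agent.NoFixedPrice.L2
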