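-- Row 191 (S0291): the marker lemma of #2044.  Small complete sections for aperiodic
-- countable pseudogroups of partial measure preserving bijections.  Abstract, no group in sight.
import Mathlib

set_option autoImplicit false

open MeasureTheory Set

namespace Crest.Agent.NoFixedPrice.Marker

variable {Y ι : Type*} [MeasurableSpace Y]

/-- A countable family of partial measure preserving bijections `φ i : D i → Y`, closed under
inverses. -/
structure PartialFamily (μ : Measure Y) (D : ι → Set Y) (φ : ι → Y → Y) : Prop where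
  measD : ∀ i, MeasurableSet (D i)
  measφ : ∀ i, Measurable (φ i)
  inv : ∀ i, ∃ j, D j = φ i '' D i ∧ ∀ x ∈ D i, φ j (φ i x) = x
  mp : ∀ i (A : Set Y), MeasurableSet A → A ⊆ D i → μ (φ i '' A) = μ A

/-- The relation generated (as a set of arrows) by the family. -/
def Rel (D : ι → Set Y) (φ : ι → Y → Y) (x y : Y) : Prop := ∃ i, x ∈ D i ∧ φ i x = y

section Basic

variable {μ : Measure Y} {D : ι → Set Y} {φ : ι → Y → Y}

theorem PartialFamily.measurableSet_image (h : PartialFamily μ D φ) (i : ι) {A : Set Y}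
    (hA : MeasurableSet A) (hAD : A ⊆ D i) : MeasurableSet (φ i '' A) := by
  obtain ⟨j, hj, hinv⟩ := h.inv i
  have : φ i '' A = D j ∩ φ j ⁻¹' A := by
    ext y
    constructor
    · rintro ⟨x, hx, rfl⟩
      refine ⟨?_, ?_⟩
      · rw [hj]; exact ⟨x, hAD hx, rfl⟩
      · simpa [hinv x (hAD hx)] using hx
    · rintro ⟨hy, hyA⟩
      rw [hj] at hy
      obtain ⟨x, hx, rfl⟩ := hy
      have := hinv x hx
      simp only [mem_preimage, this] at hyA
      exact ⟨x, hyA, rfl⟩
  rw [this]
  exact (h.measD j).inter (h.measφ j hA)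

/-- equality of two measurable maps is a measurable condition when a countable family separates
points. -/
theorem measurableSet_eq_of_separating {A : ℕ → Set Y} (hA : ∀ n, MeasurableSet (A n))
    (hsep : ∀ x y, x ≠ y → ∃ n, (x ∈ A n ∧ y ∉ A n) ∨ (x ∉ A n ∧ y ∈ A n))
    {Z : Type*} [MeasurableSpace Z] {f g : Z → Y} (hf : Measurable f) (hg : Measurable g) :
    MeasurableSet {z | f z = g z} := by
  have : {z | f z = g z} = ⋂ n, ((f ⁻¹' A n ∩ g ⁻¹' A n) ∪ ((f ⁻¹' A n)ᶜ ∩ (g ⁻¹' A n)ᶜ)) := by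
    ext z
    simp only [mem_setOf_eq, mem_iInter, mem_union, mem_inter_iff, mem_preimage, mem_compl_iff]
    constructor
    · intro h n
      rw [h]
      by_cases hn : g z ∈ A n
      · exact Or.inl ⟨hn, hn⟩
      · exact Or.inr ⟨hn, hn⟩
    · intro h
      by_contra hne
      obtain ⟨n, hn⟩ := hsep _ _ hne
      rcases h n with h1 | h1 <;> rcases hn with h2 | h2 <;> tauto
  rw [this]
  exact MeasurableSet.iInter fun n =>
    ((hf (hA n)).inter (hg (hA n))).union ((hf (hA n)).compl.inter (hg (hA n)).compl)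

/-- "the class of `x` meets `C` infinitely often" is a countable combination of measurable
conditions. -/
theorem measurableSet_infinite [Countable ι] (h : PartialFamily μ D φ)
    {A : ℕ → Set Y} (hA : ∀ n, MeasurableSet (A n))
    (hsep : ∀ x y, x ≠ y → ∃ n, (x ∈ A n ∧ y ∉ A n) ∨ (x ∉ A n ∧ y ∈ A n))
    {C : Set Y} (hC : MeasurableSet C) :
    MeasurableSet {x | {y | Rel D φ x y ∧ y ∈ C}.Infinite} := by
  have key : {x | {y | Rel D φ x y ∧ y ∈ C}.Infinite} =
      ⋂ F : Finset ι, ⋃ i : ι, (D i ∩ φ i ⁻¹' C) ∩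
        ⋂ j ∈ F, ((D j)ᶜ ∪ {x | φ j x = φ i x}ᶜ) := by
    ext x
    simp only [mem_setOf_eq, mem_iInter, mem_iUnion, mem_inter_iff, mem_preimage, mem_union,
      mem_compl_iff]
    constructor
    · intro hinf F
      have hfin : ((fun j => φ j x) '' (F : Set ι)).Finite := (F.finite_toSet).image _
      obtain ⟨y, hy, hyF⟩ := hinf.exists_notMem_finite hfin
      obtain ⟨⟨i, hi, rfl⟩, hyC⟩ := hy
      refine ⟨i, ⟨hi, hyC⟩, fun j hj => ?_⟩
      right
      intro he
      exact hyF ⟨j, hj, he⟩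
    · intro hall hfin
      classical
      -- choose an index for each point of the finite set
      have hfin' : {y | Rel D φ x y ∧ y ∈ C}.Finite := hfin
      obtain ⟨i00, -, -⟩ := hall ∅
      haveI : Nonempty ι := ⟨i00⟩
      choose! idx hidx using (fun y (hy : y ∈ {y | Rel D φ x y ∧ y ∈ C}) => hy.1)
      obtain ⟨i, ⟨hi, hiC⟩, hF⟩ := hall (hfin'.toFinset.image idx)
      have hy : φ i x ∈ {y | Rel D φ x y ∧ y ∈ C} := ⟨⟨i, hi, rfl⟩, hiC⟩
      have hmem : idx (φ i x) ∈ hfin'.toFinset.image idx :=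
        Finset.mem_image.mpr ⟨φ i x, hfin'.mem_toFinset.mpr hy, rfl⟩
      rcases hF _ hmem with h1 | h1
      · exact h1 (hidx _ hy).1
      · exact h1 (hidx _ hy).2
  rw [key]
  refine MeasurableSet.iInter fun F => MeasurableSet.iUnion fun i => ?_
  refine ((h.measD i).inter (h.measφ i hC)).inter ?_
  refine Finset.measurableSet_biInter _ fun j _ => ?_
  exact (h.measD j).compl.union
    (measurableSet_eq_of_separating hA hsep (h.measφ j) (h.measφ i)).compl

end Basic

section Transversal

variable {μ : Measure Y} {D : ι → Set Y} {φ : ι → Y → Y}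

/-- A measurable partial transversal of a relation with infinite classes is null. -/
theorem transversal_null [Countable ι] [IsFiniteMeasure μ] (h : PartialFamily μ D φ)
    (hR : Equivalence (Rel D φ))
    {A : ℕ → Set Y} (hA : ∀ n, MeasurableSet (A n))
    (hsep : ∀ x y, x ≠ y → ∃ n, (x ∈ A n ∧ y ∉ A n) ∨ (x ∉ A n ∧ y ∈ A n))
    {Z : Set Y} (hZ : MeasurableSet Z)
    (htrans : ∀ x ∈ Z, ∀ y ∈ Z, Rel D φ x y → x = y)
    (hinf : ∀ x ∈ Z, {y | Rel D φ x y}.Infinite) : μ Z = 0 := by
  classical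
  by_contra hne
  -- `ι` is nonempty since classes are nonempty
  have hnon : Z.Nonempty := by
    by_contra hem
    rw [not_nonempty_iff_eq_empty] at hem
    simp [hem] at hne
  obtain ⟨z0, hz0⟩ := hnon
  obtain ⟨y0, hy0⟩ := (hinf z0 hz0).nonempty
  obtain ⟨i0, -, -⟩ := hy0
  haveI : Nonempty ι := ⟨i0⟩
  obtain ⟨e, he⟩ := exists_surjective_nat ι
  -- first appearance indices
  let J : Y → Set ℕ := fun z => {n | z ∈ D (e n) ∧ ∀ n' < n, ¬ (z ∈ D (e n') ∧ φ (e n') z = φ (e n) z)}
  have hJinf : ∀ z ∈ Z, (J z).Infinite := by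
    intro z hz hfin
    apply hinf z hz
    refine (hfin.image (fun n => φ (e n) z)).subset ?_
    rintro y ⟨i, hi, rfl⟩
    obtain ⟨n0, rfl⟩ := he i
    -- least index giving the same point
    let P : ℕ → Prop := fun n => z ∈ D (e n) ∧ φ (e n) z = φ (e n0) z
    have hP : ∃ n, P n := ⟨n0, hi, rfl⟩
    refine ⟨Nat.find hP, ⟨(Nat.find_spec hP).1, ?_⟩, (Nat.find_spec hP).2⟩
    intro n' hn' hc
    refine Nat.find_min hP hn' ⟨hc.1, ?_⟩
    rw [hc.2]
    exact (Nat.find_spec hP).2
  let Zn : ℕ → Set Y := fun n => Z ∩ {z | n ∈ J z}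
  have hZnmeas : ∀ n, MeasurableSet (Zn n) := by
    intro n
    refine hZ.inter ?_
    have : {z | n ∈ J z} = D (e n) ∩ ⋂ n' ∈ Finset.range n,
        ((D (e n'))ᶜ ∪ {z | φ (e n') z = φ (e n) z}ᶜ) := by
      ext z
      simp only [J, mem_setOf_eq, mem_inter_iff, mem_iInter, Finset.mem_range, mem_union,
        mem_compl_iff, not_and_or]
    rw [this]
    refine (h.measD _).inter (Finset.measurableSet_biInter _ fun n' _ => ?_)
    exact (h.measD _).compl.union
      (measurableSet_eq_of_separating hA hsep (h.measφ _) (h.measφ _)).compl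
  have hZnD : ∀ n, Zn n ⊆ D (e n) := fun n z hz => hz.2.1
  let T : ℕ → Set Y := fun n => φ (e n) '' Zn n
  have hTmeas : ∀ n, MeasurableSet (T n) := fun n =>
    h.measurableSet_image _ (hZnmeas n) (hZnD n)
  have hTmu : ∀ n, μ (T n) = μ (Zn n) := fun n => h.mp _ _ (hZnmeas n) (hZnD n)
  have hTdisj : Pairwise (Function.onFun Disjoint T) := by
    intro n m hnm
    rw [Function.onFun, Set.disjoint_left]
    rintro w ⟨z, hz, rfl⟩ ⟨z', hz', hw⟩
    have hRz : Rel D φ z (φ (e n) z) := ⟨_, hz.2.1, rfl⟩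
    have hRz' : Rel D φ z' (φ (e n) z) := ⟨_, hz'.2.1, hw⟩
    have hzz : z' = z := htrans z' hz'.1 z hz.1 (hR.trans hRz' (hR.symm hRz))
    subst hzz
    rcases lt_or_gt_of_ne hnm with hlt | hlt
    · exact hz'.2.2 n hlt ⟨hz.2.1, hw.symm⟩
    · exact hz.2.2 m hlt ⟨hz'.2.1, hw⟩
  -- the sum of the masses is finite
  have hsum : ∑' n, μ (Zn n) ≠ ⊤ := by
    have : ∑' n, μ (Zn n) = μ (⋃ n, T n) := by
      rw [measure_iUnion hTdisj hTmeas]
      exact tsum_congr fun n => (hTmu n).symm
    rw [this]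
    exact measure_ne_top _ _
  -- but it is infinite if `Z` is not null
  apply hsum
  have hlint : ∑' n, μ (Zn n) = ∫⁻ z, ∑' n, (Zn n).indicator 1 z ∂μ := by
    rw [lintegral_tsum fun n => (measurable_one.indicator (hZnmeas n)).aemeasurable]
    refine tsum_congr fun n => ?_
    rw [lintegral_indicator_one (hZnmeas n)]
  rw [hlint]
  have hge : ∫⁻ z, Z.indicator (fun _ => (⊤ : ENNReal)) z ∂μ ≤ ∫⁻ z, ∑' n, (Zn n).indicator 1 z ∂μ := by
    refine lintegral_mono fun z => ?_
    by_cases hz : z ∈ Z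
    · simp only [indicator_of_mem hz]
      have : ∑' n, (Zn n).indicator (1 : Y → ENNReal) z = ∑' n : ℕ, (J z).indicator 1 n := by
        refine tsum_congr fun n => ?_
        by_cases hn : n ∈ J z
        · rw [indicator_of_mem (show z ∈ Zn n from ⟨hz, hn⟩), indicator_of_mem hn]; rfl
        · rw [indicator_of_notMem (fun hc => hn hc.2), indicator_of_notMem hn]
      rw [this, ← tsum_subtype (J z) (1 : ℕ → ENNReal)]
      haveI : Infinite (J z) := (hJinf z hz).to_subtype
      simp only [Pi.one_apply]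
      rw [ENNReal.tsum_const_eq_top_of_ne_zero one_ne_zero]
    · simp [indicator_of_notMem hz]
  have htop : ∫⁻ z, Z.indicator (fun _ => (⊤ : ENNReal)) z ∂μ = ⊤ := by
    rw [lintegral_indicator hZ, setLIntegral_const, ENNReal.top_mul hne]
  rw [htop, top_le_iff] at hge
  exact hge

end Transversal

section Main

variable {μ : Measure Y} {D : ι → Set Y} {φ : ι → Y → Y}

open Classical in
/-- The Lusin–Novikov style thinning: `B n` keeps from the previous set either the part in `A n`
or the part outside, on each class, whichever stays infinite. -/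
noncomputable def thin (D : ι → Set Y) (φ : ι → Y → Y) (I : Set Y) (A : ℕ → Set Y) : ℕ → Set Y
  | 0 => I
  | n + 1 =>
    {x | x ∈ thin D φ I A n ∩ A n ∧ {y | Rel D φ x y ∧ y ∈ thin D φ I A n ∩ A n}.Infinite} ∪
    {x | x ∈ thin D φ I A n \ A n ∧ ¬ {y | Rel D φ x y ∧ y ∈ thin D φ I A n ∩ A n}.Infinite}

theorem thin_succ_subset (I : Set Y) (A : ℕ → Set Y) (n : ℕ) :
    thin D φ I A (n + 1) ⊆ thin D φ I A n := by
  rintro x (hx | hx)
  · exact hx.1.1
  · exact hx.1.1

theorem thin_antitone (I : Set Y) (A : ℕ → Set Y) : Antitone (thin D φ I A) :=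
  antitone_nat_of_succ_le (thin_succ_subset I A)

theorem thin_measurable [Countable ι] (h : PartialFamily μ D φ) {I : Set Y} (hI : MeasurableSet I)
    {A : ℕ → Set Y} (hA : ∀ n, MeasurableSet (A n))
    (hsep : ∀ x y, x ≠ y → ∃ n, (x ∈ A n ∧ y ∉ A n) ∨ (x ∉ A n ∧ y ∈ A n)) (n : ℕ) :
    MeasurableSet (thin D φ I A n) := by
  induction n with
  | zero => exact hI
  | succ n ih =>
    have hC : MeasurableSet (thin D φ I A n ∩ A n) := ih.inter (hA n)
    have hm := measurableSet_infinite h hA hsep hC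
    refine MeasurableSet.union ?_ ?_
    · exact hC.inter hm
    · exact (ih.diff (hA n)).inter hm.compl

/-- Every class in `I` meets every thinning in an infinite set. -/
theorem thin_infinite (hR : Equivalence (Rel D φ)) {I : Set Y}
    (hinf : ∀ x ∈ I, {y | Rel D φ x y}.Infinite)
    (hinv : ∀ x ∈ I, ∀ y, Rel D φ x y → y ∈ I) (A : ℕ → Set Y) (n : ℕ) :
    ∀ x ∈ I, {y | Rel D φ x y ∧ y ∈ thin D φ I A n}.Infinite := by
  induction n with
  | zero =>
    intro x hx
    refine (hinf x hx).mono ?_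
    intro y hy
    exact ⟨hy, hinv x hx y hy⟩
  | succ n ih =>
    intro x hx
    have same : ∀ {a b : Y}, Rel D φ a b → ∀ C : Set Y,
        {y | Rel D φ a y ∧ y ∈ C} = {y | Rel D φ b y ∧ y ∈ C} := by
      intro a b hab C
      ext y
      exact ⟨fun hy => ⟨hR.trans (hR.symm hab) hy.1, hy.2⟩, fun hy => ⟨hR.trans hab hy.1, hy.2⟩⟩
    by_cases hcase : {y | Rel D φ x y ∧ y ∈ thin D φ I A n ∩ A n}.Infinite
    · refine hcase.mono ?_
      rintro y ⟨hxy, hy⟩
      refine ⟨hxy, Or.inl ⟨hy, ?_⟩⟩
      rw [← same hxy]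
      exact hcase
    · -- the part outside `A n` is infinite
      have hout : {y | Rel D φ x y ∧ y ∈ thin D φ I A n \ A n}.Infinite := by
        intro hfin
        apply ih x hx
        have hfin' := not_infinite.mp hcase
        refine (hfin.union hfin').subset ?_
        rintro y ⟨hxy, hy⟩
        by_cases hyA : y ∈ A n
        · exact Or.inr ⟨hxy, hy, hyA⟩
        · exact Or.inl ⟨hxy, hy, hyA⟩
      refine hout.mono ?_
      rintro y ⟨hxy, hy⟩
      refine ⟨hxy, Or.inr ⟨hy, ?_⟩⟩
      rw [← same hxy]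
      exact hcase

/-- **Marker lemma.**  `Y` finite measure, `φ i` a countable family of partial measure preserving
bijections closed under inverses whose arrows form an equivalence relation, `I` a measurable
invariant set all of whose classes are infinite, `A n` a countable separating family.  Then `I`
has complete sections of arbitrarily small measure. -/
theorem exists_small_complete_section [Countable ι] [IsFiniteMeasure μ] (h : PartialFamily μ D φ)
    (hR : Equivalence (Rel D φ))
    {I : Set Y} (hI : MeasurableSet I)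
    (hinv : ∀ x ∈ I, ∀ y, Rel D φ x y → y ∈ I)
    (hinf : ∀ x ∈ I, {y | Rel D φ x y}.Infinite)
    {A : ℕ → Set Y} (hA : ∀ n, MeasurableSet (A n))
    (hsep : ∀ x y, x ≠ y → ∃ n, (x ∈ A n ∧ y ∉ A n) ∨ (x ∉ A n ∧ y ∈ A n))
    {δ : ENNReal} (hδ : 0 < δ) :
    ∃ S : Set Y, MeasurableSet S ∧ S ⊆ I ∧ μ S ≤ δ ∧ ∀ x ∈ I, ∃ y ∈ S, Rel D φ x y := by
  have hmeas := thin_measurable h hI hA hsep (D := D) (φ := φ)
  have hanti := thin_antitone (D := D) (φ := φ) I A
  have hsub : ∀ n, thin D φ I A n ⊆ I := by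
    intro n
    induction n with
    | zero => exact subset_rfl
    | succ n ih => exact (thin_succ_subset I A n).trans ih
  -- the intersection is a transversal, hence null
  let Z := ⋂ n, thin D φ I A n
  have hZmeas : MeasurableSet Z := MeasurableSet.iInter hmeas
  have hZsub : Z ⊆ I := (iInter_subset _ 0).trans (hsub 0)
  have htrans : ∀ x ∈ Z, ∀ y ∈ Z, Rel D φ x y → x = y := by
    intro x hx y hy hxy
    by_contra hne
    have same : ∀ C : Set Y,
        {z | Rel D φ x z ∧ z ∈ C} = {z | Rel D φ y z ∧ z ∈ C} := by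
      intro C
      ext z
      exact ⟨fun hz => ⟨hR.trans (hR.symm hxy) hz.1, hz.2⟩, fun hz => ⟨hR.trans hxy hz.1, hz.2⟩⟩
    obtain ⟨n, hn⟩ := hsep x y hne
    have hxn := mem_iInter.mp hx (n + 1)
    have hyn := mem_iInter.mp hy (n + 1)
    rcases hn with ⟨hxA, hyA⟩ | ⟨hxA, hyA⟩
    · have h1 : {z | Rel D φ x z ∧ z ∈ thin D φ I A n ∩ A n}.Infinite := by
        rcases hxn with hx1 | hx1
        · exact hx1.2
        · exact absurd hxA hx1.1.2
      have h2 : ¬ {z | Rel D φ y z ∧ z ∈ thin D φ I A n ∩ A n}.Infinite := by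
        rcases hyn with hy1 | hy1
        · exact absurd hy1.1.2 hyA
        · exact hy1.2
      rw [same] at h1
      exact h2 h1
    · have h1 : {z | Rel D φ y z ∧ z ∈ thin D φ I A n ∩ A n}.Infinite := by
        rcases hyn with hy1 | hy1
        · exact hy1.2
        · exact absurd hyA hy1.1.2
      have h2 : ¬ {z | Rel D φ x z ∧ z ∈ thin D φ I A n ∩ A n}.Infinite := by
        rcases hxn with hx1 | hx1
        · exact absurd hx1.1.2 hxA
        · exact hx1.2
      rw [← same] at h1
      exact h2 h1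
  have hZ0 : μ Z = 0 :=
    transversal_null h hR hA hsep hZmeas htrans (fun x hx => hinf x (hZsub hx))
  -- continuity from above
  have hlim : Filter.Tendsto (fun n => μ (thin D φ I A n)) Filter.atTop (nhds (μ Z)) :=
    tendsto_measure_iInter_atTop (fun n => (hmeas n).nullMeasurableSet) hanti
      ⟨0, measure_ne_top _ _⟩
  rw [hZ0] at hlim
  obtain ⟨n, hn⟩ := ((tendsto_order.1 hlim).2 δ hδ).exists
  refine ⟨thin D φ I A n, hmeas n, hsub n, hn.le, fun x hx => ?_⟩
  obtain ⟨y, hy1, hy2⟩ := (thin_infinite hR hinf hinv A n x hx).nonempty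
  exact ⟨y, hy2, hy1⟩

/-- Same, with the separating family supplied by `CountablySeparated`. -/
theorem exists_small_complete_section' [Countable ι] [IsFiniteMeasure μ]
    [MeasurableSpace.CountablySeparated Y] (h : PartialFamily μ D φ)
    (hR : Equivalence (Rel D φ))
    {I : Set Y} (hI : MeasurableSet I)
    (hinv : ∀ x ∈ I, ∀ y, Rel D φ x y → y ∈ I)
    (hinf : ∀ x ∈ I, {y | Rel D φ x y}.Infinite)
    {δ : ENNReal} (hδ : 0 < δ) :
    ∃ S : Set Y, MeasurableSet S ∧ S ⊆ I ∧ μ S ≤ δ ∧ ∀ x ∈ I, ∃ y ∈ S, Rel D φ x y := by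
  obtain ⟨C, hCcount, hCmeas, hCsep⟩ :=
    HasCountableSeparatingOn.exists_countable_separating (α := Y) (p := MeasurableSet) (t := univ)
  -- a sequence enumerating the family (together with `∅` to guarantee nonemptiness)
  have hCcount' : (insert (∅ : Set Y) C).Countable := hCcount.insert _
  obtain ⟨A, hAeq⟩ := hCcount'.exists_eq_range (insert_nonempty _ _)
  have hAmeas : ∀ n, MeasurableSet (A n) := by
    intro n
    have : A n ∈ insert (∅ : Set Y) C := by rw [hAeq]; exact mem_range_self n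
    rcases this with h0 | h0
    · rw [h0]; exact MeasurableSet.empty
    · exact hCmeas _ h0
  have hsep : ∀ x y, x ≠ y → ∃ n, (x ∈ A n ∧ y ∉ A n) ∨ (x ∉ A n ∧ y ∈ A n) := by
    intro x y hne
    by_contra hno
    push_neg at hno
    apply hne
    refine hCsep x (mem_univ x) y (mem_univ y) fun s hs => ?_
    have hsA : s ∈ range A := by
      rw [← hAeq]; exact mem_insert_of_mem _ hs
    obtain ⟨n, rfl⟩ := hsA
    constructor
    · intro hx
      exact ((hno n).1 hx)
    · intro hy
      by_contra hx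
      exact ((hno n).2 hx) hy
  exact exists_small_complete_section h hR hI hinv hinf hAmeas hsep hδ

end Main

end Crest.Agent.NoFixedPrice.Marker
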