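import Crest.Agent.Lib.NoFixedPrice.FoldCore
import Crest.Agent.Lib.NoFixedPrice.FoldQuot
import Crest.Agent.Lib.NoFixedPrice.Cells

/-!
# Row 191 (S0291): the Pi lemma `FoldCore.pi_fold` on `MGraph` (helper25)

`FoldCore` works with raw data `Sys`, `FoldQuot` and `Cells` with `MGraph`. This file is the bridge:

* `sys K hact sg Tp`: the raw system of an `MGraph`, each letter `s` read in the direction
  `sg s` (for `L = Option β` the stable letter is read backwards, as `pi_fold` wants).
* `edgeMass_eq`: the edge mass of `K.quot ρ` is `edgeMass`; `vol_eq`: `Vol ρ = massV (K.quot ρ) + off`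
  when `ρ` does not merge sheets without a vertex (`RespDead`).
* `foldOf`, `isFold_foldOf`: helper99's fold closure is helper85's `IsFold`; it respects dead sheets.
* `pi_mgraph`: `excess K' - cellMass K' ≤ massE K - ∑ Tp - massV (K.quot ρ₀)` for `K' = K.fold` with
  seeds `ρ₀` and designated tops `Tp` whose bottoms are closed modulo `ρ₀`.
* `mergeRel`, ...: seeds, one merge over a set `D` costs at most `μ D`.
-/

set_option autoImplicit false
set_option linter.unusedSectionVars false
set_option linter.deprecated false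

namespace Crest.Agent.NoFixedPrice.PiBridge

open MeasureTheory Set
open Crest.Agent.NoFixedPrice
open Crest.Agent.NoFixedPrice.FoldCore (Sys IsFold MeasRel numCls numPairs numE numT clsPair edgeMass
  topMass Vol mass Reads wAct)

variable {Γ L β P X : Type*} [Group Γ] [MulAction Γ X] [MeasurableSpace X]

/-- A group element as a measurable equivalence. -/
def actE (hact : ∀ g : Γ, Measurable fun x : X => g • x) (g : Γ) : X ≃ᵐ X where
  toFun x := g • x
  invFun x := g⁻¹ • x
  left_inv x := inv_smul_smul g x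
  right_inv x := smul_inv_smul g x
  measurable_toFun := hact g
  measurable_invFun := hact g⁻¹

@[simp] lemma actE_apply (hact : ∀ g : Γ, Measurable fun x : X => g • x) (g : Γ) (x : X) :
    actE hact g x = g • x := rfl

section Sys

variable {val : L → Γ} (K : MGraph val P X) (hact : ∀ g : Γ, Measurable fun x : X => g • x)

/-- The raw system of an `MGraph`: the letter `s` is read in the direction `sg s`. -/
def sys (sg : L → Bool) (Tp : L → P → P → Set X) : Sys X L P where
  act s := actE hact (sval val (s, sg s))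
  Ed s p q := K.half (s, sg s) p q
  Tp := Tp

variable {K hact} {sg : L → Bool} {Tp : L → P → P → Set X}

@[simp] lemma sys_act (s : L) (x : X) :
    (sys K hact sg Tp).act s x = sval val (s, sg s) • x := rfl

lemma mem_sys_Ed {s : L} {p q : P} {x : X} :
    x ∈ (sys K hact sg Tp).Ed s p q ↔ K.Adj (s, sg s) (x, p) (sval val (s, sg s) • x, q) := Iff.rfl

/-- Fold closedness in the sense of `Sys`, from `MGraph.FoldClosed`. -/
lemma sys_foldClosed [Fintype P] [LinearOrder P] {ρ : SheetRel P X} (h : MGraph.FoldClosed K ρ) :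
    (sys K hact sg Tp).FoldClosed ρ.rel := by
  intro x s p q p' q' h1 h2
  have h1' := mem_sys_Ed.1 h1
  have h2' := mem_sys_Ed.1 h2
  constructor
  · intro hr
    exact h _ _ _ _ _ _ _ h1' h2' hr
  · intro hr
    exact h _ _ _ _ _ _ _ h1'.symm h2'.symm hr

/-- Conversely a fold closed family in the sense of `Sys` passes the rule for both signs. -/
lemma adj_rule_of_sys_foldClosed {τ : X → Setoid P} (h : (sys K hact sg Tp).FoldClosed τ)
    (ℓ : L × Bool) (x y : X) (p p' q q' : P) (h1 : K.Adj ℓ (x, p) (y, q))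
    (h2 : K.Adj ℓ (x, p') (y, q')) (hr : (τ x).r p p') : (τ y).r q q' := by
  obtain ⟨s, b⟩ := ℓ
  by_cases hb : b = sg s
  · subst hb
    have e1 : y = sval val (s, sg s) • x := h1.fst_eq
    subst e1
    exact (h x s p q p' q' h1 h2).1 hr
  · have hb' : (!b) = sg s := by
      cases b <;> cases hs : sg s <;> simp_all
    have h1s : K.Adj (s, sg s) (y, q) (x, p) := by
      have := h1.symm
      simpa [sinv, hb'] using this
    have h2s : K.Adj (s, sg s) (y, q') (x, p') := by
      have := h2.symm
      simpa [sinv, hb'] using this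
    have e1 : x = sval val (s, sg s) • y := h1s.fst_eq
    subst e1
    exact (h y s q p q' p' h1s h2s).2 hr

end Sys

section Quot

variable {val : L → Γ} [Fintype P] [LinearOrder P] (K : MGraph val P X)
  (hact : ∀ g : Γ, Measurable fun x : X => g • x) (ρ : SheetRel P X)

/-- Half-edges of the quotient. -/
lemma mem_quot_half_iff {ℓ : L × Bool} {p q : P} {x : X} :
    x ∈ (K.quot ρ hact).half ℓ p q ↔
      ∃ p' q', ρ.rep x p' = p ∧ ρ.rep (sval val ℓ • x) q' = q ∧ x ∈ K.half ℓ p' q' := by
  constructor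
  · intro h
    obtain ⟨⟨x', p'⟩, ⟨y', q'⟩, h1, h2, h3⟩ := K.exists_lift ρ hact h
    have e1 : x' = x := congrArg Prod.fst h1
    have e2 : y' = sval val ℓ • x := congrArg Prod.fst h2
    subst e1
    subst e2
    have e3 : ρ.rep x' p' = p := congrArg Prod.snd h1
    have e4 : ρ.rep (sval val ℓ • x') q' = q := congrArg Prod.snd h2
    exact ⟨p', q', e3, e4, h3⟩
  · rintro ⟨p', q', rfl, rfl, h⟩
    exact MGraph.Adj.qv ρ hact (K := K) h

/-- The number of half-edges of the quotient at a point is the number of pairs of classes. -/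
lemma ncard_quot_half (ℓ : L × Bool) (x : X) :
    ({c : P × P | x ∈ (K.quot ρ hact).half ℓ c.1 c.2}).ncard =
      numPairs (ρ.rel x) (ρ.rel (sval val ℓ • x)) {c | x ∈ K.half ℓ c.1 c.2} := by
  classical
  set y := sval val ℓ • x with hy
  let g₁ : Quotient (ρ.rel x) → P := Quotient.lift (ρ.rep x) fun _ _ h => ρ.rep_eq_of_rel h
  let g₂ : Quotient (ρ.rel y) → P := Quotient.lift (ρ.rep y) fun _ _ h => ρ.rep_eq_of_rel h
  have hg₁ : Function.Injective g₁ := by
    intro a b
    induction a using Quotient.inductionOn with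
    | h a =>
      induction b using Quotient.inductionOn with
      | h b =>
        intro h
        exact Quotient.sound (ρ.rep_eq_iff.1 h)
  have hg₂ : Function.Injective g₂ := by
    intro a b
    induction a using Quotient.inductionOn with
    | h a =>
      induction b using Quotient.inductionOn with
      | h b =>
        intro h
        exact Quotient.sound (ρ.rep_eq_iff.1 h)
  have hg : Function.Injective (Prod.map g₁ g₂) := hg₁.prodMap hg₂
  have himg : {c : P × P | x ∈ (K.quot ρ hact).half ℓ c.1 c.2} =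
      Prod.map g₁ g₂ '' (clsPair (ρ.rel x) (ρ.rel y) '' {c | x ∈ K.half ℓ c.1 c.2}) := by
    ext ⟨p, q⟩
    simp only [mem_ofPred_eq, mem_image]
    rw [mem_quot_half_iff]
    constructor
    · rintro ⟨p', q', h1, h2, h3⟩
      exact ⟨_, ⟨(p', q'), h3, rfl⟩, Prod.ext h1 h2⟩
    · rintro ⟨_, ⟨⟨p', q'⟩, h3, rfl⟩, h4⟩
      exact ⟨p', q', congrArg Prod.fst h4, congrArg Prod.snd h4, h3⟩
  rw [himg, Set.ncard_image_of_injective _ hg]
  rfl

variable [Fintype L] [DecidableEq L] (μ : Measure X) [IsFiniteMeasure μ]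
  (hmp : ∀ g : Γ, MeasurePreserving (fun x : X => g • x) μ μ)

include hmp in
/-- Half-edges of one signed letter have the total mass of the edges of the letter. -/
lemma sum_half_eq (K : MGraph val P X) (ℓ : L × Bool) :
    ∑ c : P × P, μ.real (K.half ℓ c.1 c.2) = ∑ p, ∑ q, μ.real (K.E ℓ.1 p q) := by
  rw [Fintype.sum_prod_type]
  simp_rw [K.measureReal_half μ hmp]
  obtain ⟨s, b⟩ := ℓ
  cases b
  · simpa using Finset.sum_comm
  · simp

include hmp in
/-- The edge mass of the quotient. -/
theorem edgeMass_eq (sg : L → Bool) (Tp : L → P → P → Set X) :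
    edgeMass μ (sys K hact sg Tp) ρ.rel = (K.quot ρ hact).massE μ := by
  unfold edgeMass MGraph.massE
  refine Finset.sum_congr rfl fun s _ => ?_
  have h1 : ∀ x, (numE (sys K hact sg Tp) ρ.rel s x : ℝ) =
      (({c : P × P | x ∈ (K.quot ρ hact).half (s, sg s) c.1 c.2}).ncard : ℝ) := by
    intro x
    rw [ncard_quot_half]
    rfl
  simp_rw [h1]
  rw [← FoldCore.sum_real_eq_integral_ncard μ
    (B := fun p q => (K.quot ρ hact).half (s, sg s) p q)
    (fun p q => (K.quot ρ hact).measurableSet_half hact _ _ _)]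
  exact sum_half_eq μ hmp _ (s, sg s)

/-- `ρ` does not merge a sheet without a vertex at `x` with another sheet. -/
def RespDead (K : MGraph val P X) (ρ : SheetRel P X) : Prop :=
  ∀ x p q, (ρ.rel x).r p q → p = q ∨ (x ∈ K.V p ∧ x ∈ K.V q)

variable {K ρ} in
lemma RespDead.rep_eq (h : RespDead K ρ) {x : X} {p : P} (hp : x ∉ K.V p) : ρ.rep x p = p := by
  rcases h x p _ (ρ.rep_rel x p) with h1 | h1
  · exact h1.symm
  · exact absurd h1.1 hp

variable {K ρ} in
/-- Pointwise count of classes. -/
lemma numCls_eq (h : RespDead K ρ) (x : X) :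
    numCls (ρ.rel x) = ({p | x ∈ (K.quot ρ hact).V p}).ncard + ({p | x ∉ K.V p}).ncard := by
  classical
  let g : Quotient (ρ.rel x) → P := Quotient.lift (ρ.rep x) fun _ _ h => ρ.rep_eq_of_rel h
  have hg : Function.Injective g := by
    intro a b
    induction a using Quotient.inductionOn with
    | h a =>
      induction b using Quotient.inductionOn with
      | h b =>
        intro h
        exact Quotient.sound (ρ.rep_eq_iff.1 h)
  have h1 : numCls (ρ.rel x) = (Set.range g).ncard := by
    unfold numCls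
    rw [← Set.image_univ, Set.ncard_image_of_injective _ hg, Set.ncard_univ]
  have h2 : Set.range g = {p | x ∈ (K.quot ρ hact).V p} ∪ {p | x ∉ K.V p} := by
    ext p
    constructor
    · rintro ⟨c, rfl⟩
      induction c using Quotient.inductionOn with
      | h c =>
        by_cases hc : x ∈ K.V c
        · exact Or.inl ⟨c, rfl, hc⟩
        · right
          change x ∉ K.V (ρ.rep x c)
          rwa [h.rep_eq hc]
    · rintro (⟨p', h3, _⟩ | h3)
      · exact ⟨Quotient.mk _ p', h3⟩
      · exact ⟨Quotient.mk _ p, h.rep_eq h3⟩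
  have h3 : Disjoint {p | x ∈ (K.quot ρ hact).V p} {p | x ∉ K.V p} := by
    rw [Set.disjoint_left]
    rintro p ⟨p', h3, h4⟩ h5
    have h6 : x ∉ K.V p := h5
    subst h3
    rcases h x p' _ (ρ.rep_rel x p') with h7 | h7
    · rw [← h7] at h6; exact h6 h4
    · exact h6 h7.2
  rw [h1, h2, Set.ncard_union_eq h3]

omit [LinearOrder P] [Fintype L] [DecidableEq L] in
/-- Integral of a count of sheets. -/
lemma integral_ncard_sheets {B : P → Set X} (hB : ∀ p, MeasurableSet (B p)) :
    ∫ x, (({p | x ∈ B p}).ncard : ℝ) ∂μ = ∑ p, μ.real (B p) := by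
  classical
  have h1 : ∀ x, (({p | x ∈ B p}).ncard : ℝ) = ∑ p, (B p).indicator (1 : X → ℝ) x := by
    intro x
    have : ({p | x ∈ B p}).ncard = (Finset.univ.filter fun p => x ∈ B p).card := by
      rw [← Set.ncard_coe_finset]
      congr 1
      ext c
      simp
    rw [this, Finset.card_filter]
    push_cast
    refine Finset.sum_congr rfl fun c _ => ?_
    by_cases hc : x ∈ B c <;> simp [hc]
  simp_rw [h1]
  rw [integral_finsetSum]
  · exact Finset.sum_congr rfl fun c _ => integral_indicator_one (hB _)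
  · exact fun c _ => (integrable_const (1 : ℝ)).indicator (hB _)

omit [LinearOrder P] [Fintype L] [DecidableEq L] in
lemma integrable_ncard_sheets {B : P → Set X} (hB : ∀ p, MeasurableSet (B p)) :
    Integrable (fun x => (({p | x ∈ B p}).ncard : ℝ)) μ := by
  classical
  have h1 : ∀ x, (({p | x ∈ B p}).ncard : ℝ) = ∑ p, (B p).indicator (1 : X → ℝ) x := by
    intro x
    have : ({p | x ∈ B p}).ncard = (Finset.univ.filter fun p => x ∈ B p).card := by
      rw [← Set.ncard_coe_finset]
      congr 1
      ext c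
      simp
    rw [this, Finset.card_filter]
    push_cast
    refine Finset.sum_congr rfl fun c _ => ?_
    by_cases hc : x ∈ B c <;> simp [hc]
  simp_rw [h1]
  exact integrable_finset_sum _ fun c _ => (integrable_const (1 : ℝ)).indicator (hB _)

/-- The offset of dead sheets. -/
noncomputable def deadMass (K : MGraph val P X) : ℝ := ∑ p, μ.real (K.V p)ᶜ

variable {K ρ} in
/-- `Vol` is the vertex mass of the quotient plus the offset of dead sheets. -/
theorem vol_eq (h : RespDead K ρ) :
    Vol μ ρ.rel = (K.quot ρ hact).massV μ + deadMass μ K := by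
  unfold Vol MGraph.massV deadMass
  simp_rw [numCls_eq hact h]
  push_cast
  have e : ∀ x, ({p | x ∉ K.V p} : Set P) = {p | x ∈ (K.V p)ᶜ} := fun x => rfl
  simp_rw [e]
  rw [integral_add (integrable_ncard_sheets μ (K.quot ρ hact).measV)
    (integrable_ncard_sheets μ fun p => (K.measV p).compl)]
  rw [integral_ncard_sheets μ (K.quot ρ hact).measV]
  rw [integral_ncard_sheets μ (B := fun p => (K.V p)ᶜ) fun p => (K.measV p).compl]

/-- The fold closure of a family of relations. -/
abbrev foldOf (ρ₀ : SheetRel P X) : SheetRel P X :=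
  K.foldRel hact (fun x p q => (ρ₀.rel x).r p q) ρ₀.meas

/-- Helper99's fold closure is helper85's `IsFold`. -/
theorem isFold_foldOf (sg : L → Bool) (Tp : L → P → P → Set X) (ρ₀ : SheetRel P X) :
    IsFold (sys K hact sg Tp) ρ₀.rel (foldOf K hact ρ₀).rel where
  measρ := (foldOf K hact ρ₀).meas
  ge _ _ _ h := K.foldRel_seed hact _ ρ₀.meas h
  closed := sys_foldClosed (K.foldClosed_foldRel hact _ ρ₀.meas)
  min τ hτ hge x _ _ h := K.foldRel_le hact _ ρ₀.meas τ (fun x _ _ h => hge x h)
    (adj_rule_of_sys_foldClosed hτ) h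

/-- The bottom sheets are related by the fold closure. -/
lemma foldOf_ge (ρ₀ : SheetRel P X) (x : X) {p q : P} (h : (ρ₀.rel x).r p q) :
    ((foldOf K hact ρ₀).rel x).r p q :=
  K.foldRel_seed hact _ ρ₀.meas h

variable {K} in
/-- The fold closure of seeds respecting dead sheets respects dead sheets. -/
theorem RespDead.foldOf {ρ₀ : SheetRel P X} (h : RespDead K ρ₀) :
    RespDead K (foldOf K hact ρ₀) := by
  intro x p q hr
  let T : X → Setoid P := fun x =>
    { r := fun p q => p = q ∨ (x ∈ K.V p ∧ x ∈ K.V q)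
      iseqv :=
        { refl := fun p => Or.inl rfl
          symm := by
            rintro a b (rfl | ⟨h1, h2⟩)
            · exact Or.inl rfl
            · exact Or.inr ⟨h2, h1⟩
          trans := by
            rintro a b c (rfl | ⟨h1, h2⟩) (rfl | ⟨h3, h4⟩)
            · exact Or.inl rfl
            · exact Or.inr ⟨h3, h4⟩
            · exact Or.inr ⟨h1, h2⟩
            · exact Or.inr ⟨h1, h4⟩ } }
  exact K.foldRel_le hact _ ρ₀.meas T (fun x p q hs => h x p q hs)
    (fun ℓ x y a b c d h1 h2 _ => Or.inr ⟨h1.mem_right, h2.mem_right⟩) hr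

lemma respDead_bot : RespDead K (MGraph.SheetRel.bot P X) := by
  intro x p q h
  exact Or.inl h

/-- The relation `ρ` with `u`, `v` merged over `D`. -/
noncomputable def mergeRel (ρ : SheetRel P X) {D : Set X} (hD : MeasurableSet D) (u v : P) :
    SheetRel P X where
  rel := FoldCore.mergeOn ρ.rel D u v
  meas := FoldCore.MeasRel.mergeOn ρ.meas hD u v

variable {K ρ} in
lemma RespDead.merge (h : RespDead K ρ) {D : Set X} (hD : MeasurableSet D) {u v : P}
    (hu : ∀ x ∈ D, x ∈ K.V u) (hv : ∀ x ∈ D, x ∈ K.V v) : RespDead K (mergeRel ρ hD u v) := by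
  intro x a b hr
  have hr' := (FoldCore.mergeOn_apply ρ.rel D u v x a b).1 hr
  have hlive : ∀ c d, (ρ.rel x).r c d → x ∈ K.V d → x ∈ K.V c := by
    intro c d hcd hd
    rcases h x c d hcd with rfl | h1
    · exact hd
    · exact h1.1
  have hlive' : ∀ c d, (ρ.rel x).r c d → x ∈ K.V c → x ∈ K.V d := by
    intro c d hcd hd
    rcases h x c d hcd with rfl | h1
    · exact hd
    · exact h1.2
  rcases hr' with ⟨hx, h1⟩ | ⟨_, h1⟩
  · rcases h1 with h1 | ⟨h1, h2⟩ | ⟨h1, h2⟩
    · exact h x a b h1
    · exact Or.inr ⟨hlive _ _ h1 (hu x hx), hlive' _ _ h2 (hv x hx)⟩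
    · exact Or.inr ⟨hlive _ _ h1 (hv x hx), hlive' _ _ h2 (hu x hx)⟩
  · exact h x a b h1

variable {K ρ} in
/-- One merge over `D` lowers the vertex mass of the quotient by at most `μ D`. -/
theorem massV_quot_merge_ge (h : RespDead K ρ) {D : Set X} (hD : MeasurableSet D) {u v : P}
    (h' : RespDead K (mergeRel ρ hD u v)) :
    (K.quot ρ hact).massV μ ≤ (K.quot (mergeRel ρ hD u v) hact).massV μ + μ.real D := by
  have h1 := FoldCore.vol_le_mergeOn μ ρ.meas hD u v
  have h2 := vol_eq hact μ h
  have h3 := vol_eq hact μ h'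
  have h4 : Vol μ (mergeRel ρ hD u v).rel = Vol μ (FoldCore.mergeOn ρ.rel D u v) := rfl
  rw [h4] at h3
  linarith

/-- The quotient by the trivial relation has the same vertex mass. -/
theorem massV_quot_bot : (K.quot (MGraph.SheetRel.bot P X) hact).massV μ = K.massV μ := by
  have h1 : ∀ x p, (MGraph.SheetRel.bot P X).rep x p = p := by
    intro x p
    exact ((MGraph.SheetRel.bot P X).rep_rel x p).symm
  unfold MGraph.massV
  refine Finset.sum_congr rfl fun p _ => ?_
  congr 1
  ext x
  simp [h1]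

end Quot

section Main

variable [Fintype β] [DecidableEq β] [Fintype P] [LinearOrder P] {val : Option β → Γ}
  (K : MGraph val P X) (hact : ∀ g : Γ, Measurable fun x : X => g • x)
  (a : β → ℕ → β) (Lb : ℕ)

/-- The sign of a letter in the raw system: the stable letter is read backwards. -/
def sgn : Option β → Bool := Option.isSome

/-- The designated tops as a function on all letters. -/
def topsOf (Tp : β → P → P → Set X) : Option β → P → P → Set X
  | none, _, _ => ∅
  | some i, p, q => Tp i p q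

/-- The bottom word in the raw system. -/
def wOf (a : β → ℕ → β) (Lb : ℕ) : Option β → List (Option β)
  | none => []
  | some i => (List.range Lb).map fun p => some (a i p)

/-- A designated top `x ∈ Tp i p q` has legs in `K` (from the sheets `c`, `d` below) and a bottom
in the quotient by the seeds. -/
def CellData (ρ₀ : SheetRel P X) (Tp : β → P → P → Set X) : Prop :=
  ∀ x i p q, x ∈ Tp i p q → ∃ c d,
    K.Adj (none, true) ((val none)⁻¹ • x, c) (x, p) ∧
    K.Adj (none, true) ((val none)⁻¹ • (val (some i) • x), d) (val (some i) • x, q) ∧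
    (K.quot ρ₀ hact).IsPath ((val none)⁻¹ • x, ρ₀.rep ((val none)⁻¹ • x) c) (botW a i Lb)
      ((val none)⁻¹ • (val (some i) • x), ρ₀.rep ((val none)⁻¹ • (val (some i) • x)) d)

variable {K hact} in
/-- A path of positive letters in the quotient by the seeds is a `Reads`. -/
lemma reads_of_path {Tp : β → P → P → Set X} {ρ₀ : SheetRel P X} (ws : List β) :
    ∀ (z z' : X) (c d : P),
      (K.quot ρ₀ hact).IsPath (z, ρ₀.rep z c) (ws.map fun b => (some b, true)) (z', ρ₀.rep z' d) →
      Reads (sys K hact sgn (topsOf Tp)) ρ₀.rel (ws.map some) z c d ∧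
        wAct (sys K hact sgn (topsOf Tp)) (ws.map some) z = z' := by
  induction ws with
  | nil =>
    intro z z' c d h
    have h' : (z, ρ₀.rep z c) = (z', ρ₀.rep z' d) := h
    have e1 : z = z' := congrArg Prod.fst h'
    subst e1
    have e2 : ρ₀.rep z c = ρ₀.rep z d := congrArg Prod.snd h'
    exact ⟨ρ₀.rep_eq_iff.1 e2, rfl⟩
  | cons b ws ih =>
    intro z z' c d h
    obtain ⟨m, h1, h2⟩ := h
    obtain ⟨⟨z₁, c'⟩, ⟨y, e⟩, h3, h4, h5⟩ := K.exists_lift ρ₀ hact h1
    have e1 : z₁ = z := congrArg Prod.fst h3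
    subst e1
    have e2 : ρ₀.rep z₁ c' = ρ₀.rep z₁ c := congrArg Prod.snd h3
    subst h4
    have e3 : y = val (some b) • z₁ := h5.fst_eq
    subst e3
    obtain ⟨h6, h7⟩ := ih _ z' e d h2
    refine ⟨⟨c', e, ρ₀.rep_eq_iff.1 e2.symm, h5, h6⟩, h7⟩

variable {K hact} in
/-- Paths of the quotient by `ρ₀` push to the quotient by a bigger relation. -/
lemma path_push {ρ₀ ρ : SheetRel P X} (hle : ∀ x p q, (ρ₀.rel x).r p q → (ρ.rel x).r p q)
    (w : List (Option β × Bool)) :
    ∀ {v v' : X × P}, (K.quot ρ₀ hact).IsPath v w v' →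
      (K.quot ρ hact).IsPath (MGraph.qv ρ v) w (MGraph.qv ρ v') := by
  induction w with
  | nil =>
    intro v v' h
    have : v = v' := h
    subst this
    rfl
  | cons ℓ w ih =>
    intro v v' h
    obtain ⟨m, h1, h2⟩ := h
    obtain ⟨u, u', rfl, rfl, h5⟩ := K.exists_lift ρ₀ hact h1
    refine ⟨MGraph.qv ρ (MGraph.qv ρ₀ u'), ?_, ih h2⟩
    have e : ∀ u : X × P, MGraph.qv ρ (MGraph.qv ρ₀ u) = MGraph.qv ρ u := by
      intro u
      simp only [MGraph.qv]
      congr 1
      exact (ρ.rep_eq_of_rel (hle _ _ _ (ρ₀.rep_rel u.1 u.2))).symm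
    rw [e, e]
    exact MGraph.Adj.qv ρ hact (K := K) h5

variable {K hact a Lb} in
/-- Pointwise: distinct classes of tops give distinct closed lifts of the fold. -/
lemma numPairs_le_closed (hrel : ∀ i, wordAct val (rel a Lb i) = 1) {ρ₀ : SheetRel P X}
    {Tp : β → P → P → Set X} (hTp : ∀ i p q, Tp i p q ⊆ K.E (some i) p q)
    (hcell : CellData K hact a Lb ρ₀ Tp) (x : X) (i : β) :
    numPairs ((foldOf K hact ρ₀).rel x) ((foldOf K hact ρ₀).rel (val (some i) • x))
        {c | x ∈ Tp i c.1 c.2} ≤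
      ({c | (val none)⁻¹ • x ∈ (K.quot (foldOf K hact ρ₀) hact).closedSet a Lb i c}).ncard := by
  classical
  set ρ := foldOf K hact ρ₀ with hρ
  set K' := K.quot ρ hact with hK'
  have hF : K'.Folded := K.folded_fold hact _ ρ₀.meas
  have hle : ∀ x p q, (ρ₀.rel x).r p q → (ρ.rel x).r p q := fun x p q h => foldOf_ge K hact ρ₀ x h
  set x₂ := val (some i) • x with hx₂
  set u := (val none)⁻¹ • x with hu
  set u₂ := (val none)⁻¹ • x₂ with hu₂
  set R : Set (P × P) := {c | x ∈ Tp i c.1 c.2} with hR
  unfold numPairs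
  set Y := clsPair (ρ.rel x) (ρ.rel x₂) '' R with hY
  by_cases hne : Y.Nonempty
  swap
  · rw [Set.not_nonempty_iff_eq_empty.1 hne]
    simp
  obtain ⟨_, ⟨p₀, _⟩, _⟩ := hne
  have : Nonempty P := ⟨p₀⟩
  -- the lift of a top
  have hlift : ∀ p q, x ∈ Tp i p q → ∃ c d, K'.Adj (none, true) (u, ρ.rep u c) (x, ρ.rep x p) ∧
      K'.Adj (none, true) (u₂, ρ.rep u₂ d) (x₂, ρ.rep x₂ q) ∧
      K'.IsPath (u, ρ.rep u c) (botW a i Lb) (u₂, ρ.rep u₂ d) := by
    intro p q h
    obtain ⟨c, d, h1, h2, h3⟩ := hcell x i p q h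
    refine ⟨c, d, MGraph.Adj.qv ρ hact (K := K) h1, MGraph.Adj.qv ρ hact (K := K) h2, ?_⟩
    have h4 := path_push (K := K) (hact := hact) hle _ h3
    have e1 : ρ.rep u (ρ₀.rep u c) = ρ.rep u c := (ρ.rep_eq_of_rel (hle _ _ _ (ρ₀.rep_rel u c))).symm
    have e2 : ρ.rep u₂ (ρ₀.rep u₂ d) = ρ.rep u₂ d :=
      (ρ.rep_eq_of_rel (hle _ _ _ (ρ₀.rep_rel u₂ d))).symm
    simp only [MGraph.qv] at h4
    rw [e1, e2] at h4
    exact h4
  have hex : ∀ y ∈ Y, ∃ e : P, ∃ p q c d, (p, q) ∈ R ∧ clsPair (ρ.rel x) (ρ.rel x₂) (p, q) = y ∧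
      e = ρ.rep u c ∧ K'.Adj (none, true) (u, ρ.rep u c) (x, ρ.rep x p) ∧
      K'.Adj (none, true) (u₂, ρ.rep u₂ d) (x₂, ρ.rep x₂ q) ∧
      K'.IsPath (u, ρ.rep u c) (botW a i Lb) (u₂, ρ.rep u₂ d) := by
    rintro y ⟨⟨p, q⟩, hpq, rfl⟩
    obtain ⟨c, d, h1, h2, h3⟩ := hlift p q hpq
    exact ⟨_, p, q, c, d, hpq, rfl, rfl, h1, h2, h3⟩
  choose! f hf using hex
  refine Set.ncard_le_ncard_of_injOn f ?_ ?_ (Set.toFinite _)
  · intro y hy
    obtain ⟨p, q, c, d, hpq, rfl, he, h1, h2, h3⟩ := hf y hy
    have hx : K.E (some i) p q ⊆ K.E (some i) p q := subset_rfl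
    have htop : K.Adj (some i, true) (x, p) (x₂, q) := ⟨hTp i p q hpq, rfl⟩
    have htop' : K'.Adj (some i, true) (x, ρ.rep x p) (x₂, ρ.rep x₂ q) :=
      MGraph.Adj.qv ρ hact (K := K) htop
    change u ∈ K'.closedSet a Lb i (f (clsPair (ρ.rel x) (ρ.rel x₂) (p, q)))
    rw [K'.mem_closedSet_iff a Lb hrel, he]
    unfold rel
    refine h3.append ⟨(x₂, ρ.rep x₂ q), h2, (x, ρ.rep x p), htop'.symm, (u, ρ.rep u c), h1.symm, rfl⟩
  · intro y hy y' hy' hyy
    obtain ⟨p, q, c, d, hpq, rfl, he, h1, h2, h3⟩ := hf y hy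
    obtain ⟨p', q', c', d', hpq', rfl, he', h1', h2', h3'⟩ := hf y' hy'
    have e0 : ρ.rep u c = ρ.rep u c' := by rw [← he, ← he', hyy]
    rw [← e0] at h1' h3'
    have e1 := hF _ _ _ _ h1 h1'
    have e2 := MGraph.Folded.path_unique hF h3 h3'
    rw [← e2] at h2'
    have e3 := hF _ _ _ _ h2 h2'
    have e4 : ρ.rep x p = ρ.rep x p' := congrArg Prod.snd e1
    have e5 : ρ.rep x₂ q = ρ.rep x₂ q' := congrArg Prod.snd e3
    exact Prod.ext (Quotient.sound (ρ.rep_eq_iff.1 e4)) (Quotient.sound (ρ.rep_eq_iff.1 e5))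

variable (μ : Measure X) [IsFiniteMeasure μ]
  (hmp : ∀ g : Γ, MeasurePreserving (fun x : X => g • x) μ μ)

include hmp in
/-- The total mass of the distinct classes of designated tops is at most the mass of closed lifts
of the fold. -/
theorem topMass_le (hrel : ∀ i, wordAct val (rel a Lb i) = 1) {ρ₀ : SheetRel P X}
    {Tp : β → P → P → Set X} (hTpm : ∀ i p q, MeasurableSet (Tp i p q))
    (hTp : ∀ i p q, Tp i p q ⊆ K.E (some i) p q)
    (hcell : CellData K hact a Lb ρ₀ Tp) :
    topMass μ (sys K hact sgn (topsOf Tp)) (foldOf K hact ρ₀).rel ≤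
      (K.quot (foldOf K hact ρ₀) hact).cellMass a Lb μ := by
  unfold topMass MGraph.cellMass
  rw [Fintype.sum_option]
  have h0 : ∫ x, (numT (sys K hact sgn (topsOf Tp)) (foldOf K hact ρ₀).rel none x : ℝ) ∂μ = 0 := by
    have : ∀ x, numT (sys K hact sgn (topsOf Tp)) (foldOf K hact ρ₀).rel none x = 0 := by
      intro x
      simp [numT, numPairs, sys, topsOf]
    simp [this]
  rw [h0, zero_add]
  refine Finset.sum_le_sum fun i _ => ?_
  set C := fun c => (K.quot (foldOf K hact ρ₀) hact).closedSet a Lb i c with hC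
  have hCm : ∀ c, MeasurableSet (C c) := fun c =>
    (K.quot (foldOf K hact ρ₀) hact).measurableSet_closedSet a Lb hact i c
  have hB : ∀ c, MeasurableSet ((fun x : X => (val none)⁻¹ • x) ⁻¹' C c) := fun c =>
    hact _ (hCm c)
  have h1 : ∑ c, μ.real (C c) = ∫ x, (({c | x ∈ (fun x : X => (val none)⁻¹ • x) ⁻¹' C c}).ncard : ℝ) ∂μ := by
    rw [integral_ncard_sheets μ hB]
    refine Finset.sum_congr rfl fun c _ => ?_
    rw [measureReal_def, measureReal_def, (hmp _).measure_preimage (hCm c).nullMeasurableSet]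
  rw [h1]
  refine integral_mono (FoldCore.integrable_numPairs (foldOf K hact ρ₀).meas _
    (fun p q => hTpm i p q)) (integrable_ncard_sheets μ hB) fun x => ?_
  have h2 : numT (sys K hact sgn (topsOf Tp)) (foldOf K hact ρ₀).rel (some i) x ≤
      ({c | x ∈ (fun x : X => (val none)⁻¹ • x) ⁻¹' C c}).ncard :=
    numPairs_le_closed (K := K) (hact := hact) hrel hTp hcell x i
  exact Nat.cast_le.2 h2

variable {K hact a Lb} in
include hmp in
/-- **The Pi lemma on `MGraph`**: for seeds `ρ₀` (a relation on the sheets respecting dead sheets)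
and designated tops `Tp` with legs in `K` and bottoms closed modulo `ρ₀`, the fold `K'` satisfies
`excess K' - cellMass K' ≤ massE K - ∑ Tp - massV (K.quot ρ₀)`. -/
theorem pi_mgraph (hrel : ∀ i, wordAct val (rel a Lb i) = 1) {ρ₀ : SheetRel P X}
    (hdead : RespDead K ρ₀)
    {Tp : β → P → P → Set X} (hTpm : ∀ i p q, MeasurableSet (Tp i p q))
    (hTp : ∀ i p q, Tp i p q ⊆ K.E (some i) p q)
    (hcell : CellData K hact a Lb ρ₀ Tp) :
    (K.quot (foldOf K hact ρ₀) hact).excess μ - (K.quot (foldOf K hact ρ₀) hact).cellMass a Lb μ ≤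
      K.massE μ - ∑ i, ∑ p, ∑ q, μ.real (Tp i p q) - (K.quot ρ₀ hact).massV μ := by
  classical
  set S := sys K hact sgn (topsOf Tp) with hSdef
  set ρ := foldOf K hact ρ₀ with hρ
  have hS : S.Good μ :=
    { mp := fun s => hmp _
      measEd := fun s p q => K.measurableSet_half hact _ _ _
      measTp := by
        intro s p q
        cases s with
        | none => exact MeasurableSet.empty
        | some i => exact hTpm i p q
      tp_sub := by
        intro s p q x hx
        cases s with
        | none => exact absurd hx (Set.notMem_empty x)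
        | some i =>
          change K.Adj (some i, true) (x, p) (val (some i) • x, q)
          exact ⟨hTp i p q hx, rfl⟩ }
  have key := FoldCore.pi_fold (S := S) (μ := μ) (ρ₀ := ρ₀.rel) (ρ := ρ.rel) hS none (wOf a Lb)
    ρ₀.meas (isFold_foldOf K hact sgn (topsOf Tp) ρ₀) (fun _ _ => rfl)
    (by
      intro s
      cases s with
      | none => simp [wOf]
      | some i => simp [wOf])
    (by
      intro x s p q hx
      cases s with
      | none => exact absurd hx (Set.notMem_empty x)
      | some i =>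
        obtain ⟨c, d, h1, h2, h3⟩ := hcell x i p q hx
        refine ⟨c, d, h1.symm, h2.symm, ?_⟩
        have hb : botW a i Lb = ((List.range Lb).map (a i)).map fun b => (some b, true) := by
          simp [botW, List.map_map, Function.comp_def]
        rw [hb] at h3
        have := reads_of_path (K := K) (hact := hact) (Tp := Tp) _ _ _ c d h3
        have hw : wOf a Lb (some i) = ((List.range Lb).map (a i)).map some := by
          simp [wOf, List.map_map, Function.comp_def]
        rw [hw]
        exact this)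
  have h1 : edgeMass μ S ρ.rel = (K.quot ρ hact).massE μ := edgeMass_eq K hact ρ μ hmp sgn (topsOf Tp)
  have h2 := vol_eq hact μ (RespDead.foldOf hact hdead)
  have h3 := vol_eq hact μ hdead
  have h4 : mass μ S.Ed = K.massE μ := by
    unfold mass MGraph.massE
    rw [Fintype.sum_prod_type]
    refine Finset.sum_congr rfl fun s _ => ?_
    exact sum_half_eq μ hmp K (s, sgn s)
  have h5 : mass μ S.Tp = ∑ i, ∑ p, ∑ q, μ.real (Tp i p q) := by
    unfold mass
    rw [Fintype.sum_prod_type, Fintype.sum_option]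
    have : ∑ y : P × P, μ.real (S.Tp none y.1 y.2) = 0 := by
      simp [hSdef, sys, topsOf]
    rw [this, zero_add]
    refine Finset.sum_congr rfl fun s _ => ?_
    rw [Fintype.sum_prod_type]
    rfl
  have h6 := topMass_le K hact a Lb μ hmp hrel hTpm hTp hcell
  unfold MGraph.excess
  rw [h1, h2, h3, h4, h5] at key
  linarith

end Main

end Crest.Agent.NoFixedPrice.PiBridge
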