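import Mathlib
import Crest.Prelude.Def_Cost
import Crest.Agent.Lib.NoFixedPrice.Bernoulli

/-!
# The cheap action (row 191, S0291, module M1).

`Y = ZMod M × (Γ → Bool)`, `g (j, x) = (j + e g, g • x)`, with the graphing consisting of `t` everywhere
and the letters `x_i` on the fibre over `0`. Cost `1 + d / M`.
-/

set_option autoImplicit false
set_option linter.style.haveILetI false
set_option warn.classDefReducibility false
set_option linter.unusedSimpArgs false

namespace Crest.Agent.NoFixedPrice

open MeasureTheory Measure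
open Crest.Dynamics

section

variable {Γ : Type} [Group Γ] (e : Γ →* Multiplicative ℤ) (M : ℕ)

/-- The discrete measurable structure on `ZMod M`. -/
local instance zmodMS : MeasurableSpace (ZMod M) := ⊤

local instance : DiscreteMeasurableSpace (ZMod M) := ⟨fun _ => trivial⟩

/-- The integer value of `e g`, read in `ZMod M`. -/
def eZ (g : Γ) : ZMod M := ((Multiplicative.toAdd (e g) : ℤ) : ZMod M)

lemma eZ_one : eZ e M (1 : Γ) = 0 := by simp [eZ]

lemma eZ_mul (g h : Γ) : eZ e M (g * h) = eZ e M g + eZ e M h := by
  simp [eZ]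

/-- The action on `ZMod M × (Γ → Bool)`. -/
def yAction : MulAction Γ (ZMod M × (Γ → Bool)) where
  smul g p := (p.1 + eZ e M g, g • p.2)
  one_smul p := by
    refine Prod.ext ?_ ?_
    · show p.1 + eZ e M 1 = p.1
      simp [eZ_one]
    · show (1 : Γ) • p.2 = p.2
      simp
  mul_smul g h p := by
    refine Prod.ext ?_ ?_
    · show p.1 + eZ e M (g * h) = p.1 + eZ e M h + eZ e M g
      rw [eZ_mul]; ring
    · show (g * h) • p.2 = g • h • p.2
      exact mul_smul g h p.2

/-- The normalised counting measure. -/
noncomputable def uZ : Measure (ZMod M) := (M : ENNReal)⁻¹ • Measure.count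

lemma uZ_singleton [NeZero M] (j : ZMod M) : uZ M {j} = (M : ENNReal)⁻¹ := by
  simp [uZ, Measure.count_singleton]

instance uZ_prob [NeZero M] : IsProbabilityMeasure (uZ M) := ⟨by
  have hM : (M : ENNReal) ≠ 0 := by exact_mod_cast NeZero.ne M
  simp only [uZ, Measure.smul_apply, smul_eq_mul, Measure.count_univ, ENat.card_eq_coe_fintype_card,
    ZMod.card]
  simpa using ENNReal.inv_mul_cancel hM (ENNReal.natCast_ne_top M)⟩

lemma uZ_translate [NeZero M] (a : ZMod M) :
    MeasurePreserving (fun j : ZMod M => j + a) (uZ M) (uZ M) := by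
  refine ⟨measurable_of_countable _, ?_⟩
  ext s hs
  have hm : Measurable (fun j : ZMod M => j + a) := measurable_of_countable _
  rw [Measure.map_apply hm hs]
  simp only [uZ, Measure.smul_apply, smul_eq_mul]
  congr 1
  rw [Measure.count_apply (hm hs), Measure.count_apply hs]
  have hpre : (fun j : ZMod M => j + a) ⁻¹' s = (Equiv.addRight a) ⁻¹' s := rfl
  rw [hpre]
  rw [Set.encard_preimage_of_bijective (Equiv.addRight a).bijective]

/-- The product measure on `Y`. -/
noncomputable def yMeasure : Measure (ZMod M × (Γ → Bool)) := (uZ M).prod (bernMu Γ)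

instance yMeasure_prob [NeZero M] : IsProbabilityMeasure (yMeasure (Γ := Γ) M) := by
  unfold yMeasure; infer_instance

lemma y_free [NeZero M] [Countable Γ] [Infinite Γ] :
    letI := yAction e M
    IsFreePMPAction Γ (ZMod M × (Γ → Bool)) (yMeasure (Γ := Γ) M) := by
  letI := yAction e M
  refine ⟨fun g => ?_, fun g hg => ?_⟩
  · exact (uZ_translate M (eZ e M g)).prod (measurePreserving_bern_smul g)
  · refine measure_mono_null (t := Set.univ ×ˢ {x : Γ → Bool | g • x = x}) ?_ ?_
    · rintro ⟨j, x⟩ hx
      refine ⟨trivial, ?_⟩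
      have : (j + eZ e M g, g • x) = (j, x) := hx
      exact (Prod.ext_iff.mp this).2
    · rw [yMeasure, Measure.prod_prod, bern_essentially_free g hg, mul_zero]

end

section generate

variable {Γ : Type} [Group Γ] {d : ℕ} (e : Γ →* Multiplicative ℤ) (M : ℕ)
  (iota : FreeGroup (Fin d) →* Γ) (t : Γ) (phi : FreeGroup (Fin d) →* FreeGroup (Fin d))

/-- The graphing: `t` everywhere, and the letters on the fibre over `0`. -/
def yGraphing : ℕ → Γ × Set (ZMod M × (Γ → Bool))
  | 0 => (t, Set.univ)
  | i + 1 => if h : i < d then (iota (FreeGroup.of ⟨i, h⟩), {0} ×ˢ Set.univ) else (1, ∅)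

lemma iota_mul_tpow (hrel : ∀ x, t⁻¹ * iota x * t = iota (phi x)) (n : ℕ)
    (x : FreeGroup (Fin d)) : iota x * t ^ n = t ^ n * iota (phi^[n] x) := by
  induction n generalizing x with
  | zero => simp
  | succ n ih =>
    have h1 : iota x * t = t * iota (phi x) := by
      rw [← hrel x]; group
    rw [pow_succ, ← mul_assoc, ih x, mul_assoc, show phi^[n + 1] x = phi (phi^[n] x) from
      Function.iterate_succ_apply' phi n x, ← mul_assoc (t ^ n), mul_assoc (t ^ n)]
    have h2 := h1
    rw [mul_assoc]
    congr 1
    exact (by rw [← hrel (phi^[n] x)]; group)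

variable [NeZero M]

theorem y_generates (he_t : e t = Multiplicative.ofAdd 1) (he_i : ∀ x, e (iota x) = 1)
    (hrel : ∀ x, t⁻¹ * iota x * t = iota (phi x))
    (hgen : Subgroup.closure ({t} ∪ Set.range iota) = ⊤) :
    letI := yAction e M
    Generates (Γ := Γ) (yMeasure (Γ := Γ) M) (yGraphing M iota t) := by
  letI := yAction e M
  constructor
  · intro i
    cases i with
    | zero => exact MeasurableSet.univ
    | succ i =>
      by_cases h : i < d
      · simp only [yGraphing, h, dif_pos]
        exact (MeasurableSet.singleton _).prod MeasurableSet.univ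
      · simp only [yGraphing, h, dif_neg, not_false_eq_true]
        exact MeasurableSet.empty
  · refine ⟨∅, measure_empty, fun y _ g => ?_⟩
    set R := Relation.EqvGen (GraphingStep (yGraphing M iota t)) with hR
    have hsm : ∀ (h : Γ) (p : ZMod M × (Γ → Bool)), (h • p).1 = p.1 + eZ e M h := fun _ _ => rfl
    -- `t` steps
    have ht : ∀ z : ZMod M × (Γ → Bool), R z (t • z) := fun z =>
      Relation.EqvGen.rel _ _ ⟨0, trivial, rfl⟩
    have htn : ∀ (n : ℕ) (z : ZMod M × (Γ → Bool)), R z (t ^ n • z) := by
      intro n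
      induction n with
      | zero => intro z; simpa using Relation.EqvGen.refl z
      | succ n ih =>
        intro z
        rw [pow_succ', mul_smul]
        exact Relation.EqvGen.trans _ _ _ (ih z) (ht _)
    have hei : ∀ (x : FreeGroup (Fin d)), eZ e M (iota x) = 0 := fun x => by
      simp [eZ, he_i]
    -- letter steps on the fibre over `0`
    have hletter : ∀ (i : Fin d) (z : ZMod M × (Γ → Bool)), z.1 = 0 →
        R z (iota (FreeGroup.of i) • z) := by
      intro i z hz
      refine Relation.EqvGen.rel _ _ ⟨i.1 + 1, ?_, ?_⟩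
      · simp only [yGraphing, i.2, dif_pos]
        exact ⟨hz, trivial⟩
      · simp only [yGraphing, i.2, dif_pos]
    have hF : ∀ (x : FreeGroup (Fin d)) (z : ZMod M × (Γ → Bool)), z.1 = 0 →
        R z (iota x • z) := by
      intro x
      induction x using FreeGroup.induction_on with
      | C1 => intro z _; simpa using Relation.EqvGen.refl z
      | of i => exact hletter i
      | inv_of i _ =>
        intro z hz
        have hw : ((iota (FreeGroup.of i)⁻¹) • z).1 = 0 := by
          rw [hsm, hei, hz, add_zero]
        have := hletter i _ hw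
        rw [← mul_smul, ← map_mul] at this
        simp only [mul_inv_cancel, map_one, one_smul] at this
        exact Relation.EqvGen.symm _ _ this
      | mul a b ha hb =>
        intro z hz
        rw [map_mul, mul_smul]
        refine Relation.EqvGen.trans _ _ _ (hb z hz) (ha _ ?_)
        rw [hsm, hei, hz, add_zero]
    -- every letter everywhere
    have hFall : ∀ (x : FreeGroup (Fin d)) (y : ZMod M × (Γ → Bool)), R y (iota x • y) := by
      intro x y
      set n := y.1.val with hn
      set z := (t ^ n)⁻¹ • y with hz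
      have hy : t ^ n • z = y := by simp [hz]
      have hz0 : z.1 = 0 := by
        have h1 : (t ^ n • z).1 = z.1 + eZ e M (t ^ n) := hsm _ _
        have h2 : eZ e M (t ^ n) = (n : ZMod M) := by
          simp [eZ, he_t]
        rw [hy, h2, hn, ZMod.natCast_zmod_val] at h1
        simpa using h1.symm
      have h1 : R y z := by
        have := htn n z
        rw [hy] at this
        exact Relation.EqvGen.symm _ _ this
      have h2 : R z (iota (phi^[n] x) • z) := hF _ z hz0
      have h3 : R (iota (phi^[n] x) • z) (t ^ n • iota (phi^[n] x) • z) := htn n _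
      have h4 : t ^ n • iota (phi^[n] x) • z = iota x • y := by
        rw [← mul_smul, ← iota_mul_tpow iota t phi hrel, mul_smul, hy]
      rw [h4] at h3
      exact Relation.EqvGen.trans _ _ _ h1 (Relation.EqvGen.trans _ _ _ h2 h3)
    -- every group element
    have hg : g ∈ Subgroup.closure ({t} ∪ Set.range iota) := by rw [hgen]; trivial
    revert y
    induction hg using Subgroup.closure_induction with
    | mem x hx =>
      intro y _
      rcases hx with rfl | ⟨a, rfl⟩
      · exact ht y
      · exact hFall a y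
    | one => intro y _; simpa using Relation.EqvGen.refl y
    | mul a b _ _ ha hb =>
      intro y _
      rw [mul_smul]
      exact Relation.EqvGen.trans _ _ _ (hb y (by simp)) (ha _ (by simp))
    | inv a _ ha =>
      intro y _
      have := ha (a⁻¹ • y) (by simp)
      rw [smul_inv_smul] at this
      exact Relation.EqvGen.symm _ _ this

theorem y_cost_graphing :
    graphingCost (yMeasure (Γ := Γ) M) (yGraphing M iota t) = 1 + (d : ENNReal) / M := by
  have hM : (M : ENNReal) ≠ 0 := by exact_mod_cast NeZero.ne M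
  unfold graphingCost
  rw [tsum_eq_zero_add' ENNReal.summable]
  congr 1
  · show yMeasure (Γ := Γ) M Set.univ = 1
    exact measure_univ
  · rw [tsum_eq_sum (s := Finset.range d)]
    · have h : ∀ i ∈ Finset.range d, yMeasure (Γ := Γ) M (yGraphing M iota t (i + 1)).2
          = (M : ENNReal)⁻¹ := by
        intro i hi
        have hi' : i < d := Finset.mem_range.mp hi
        simp only [yGraphing, hi', dif_pos]
        rw [yMeasure, Measure.prod_prod, uZ_singleton, measure_univ, mul_one]
      rw [Finset.sum_congr rfl h]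
      simp [div_eq_mul_inv]
    · intro i hi
      have hi' : ¬ i < d := fun h => hi (Finset.mem_range.mpr h)
      simp only [yGraphing, hi', dif_neg, not_false_eq_true]
      exact measure_empty

end generate

/-- **Module M1.** The cheap action. -/
theorem y_side {Γ : Type} [Group Γ] [Countable Γ] [Infinite Γ] {d : ℕ}
    (iota : FreeGroup (Fin d) →* Γ) (t : Γ) (phi : FreeGroup (Fin d) →* FreeGroup (Fin d))
    (e : Γ →* Multiplicative ℤ) (he_t : e t = Multiplicative.ofAdd 1)
    (he_i : ∀ x, e (iota x) = 1) (hrel : ∀ x, t⁻¹ * iota x * t = iota (phi x))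
    (hgen : Subgroup.closure ({t} ∪ Set.range iota) = ⊤) (M : ℕ) (hM : 0 < M) :
    ∃ (Y : Type) (_ : MeasurableSpace Y) (_ : StandardBorelSpace Y) (ν : Measure Y)
      (_ : IsProbabilityMeasure ν) (_ : MulAction Γ Y),
      IsFreePMPAction Γ Y ν ∧ actionCost Γ Y ν ≤ 1 + (d : ENNReal) / M := by
  haveI : NeZero M := ⟨hM.ne'⟩
  letI : MeasurableSpace (ZMod M) := ⊤
  haveI : DiscreteMeasurableSpace (ZMod M) := ⟨fun _ => trivial⟩
  refine ⟨ZMod M × (Γ → Bool), inferInstance, inferInstance, yMeasure (Γ := Γ) M,
    inferInstance, yAction e M, y_free e M, ?_⟩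
  letI := yAction e M
  rw [← y_cost_graphing M iota t]
  exact sInf_le ⟨_, y_generates e M iota t phi he_t he_i hrel hgen, rfl⟩

/-- The form needed in the statement: cost at most `1 + 99 / M`. -/
theorem y_side_99 {Γ : Type} [Group Γ] [Countable Γ] [Infinite Γ] {d : ℕ}
    (iota : FreeGroup (Fin d) →* Γ) (t : Γ) (phi : FreeGroup (Fin d) →* FreeGroup (Fin d))
    (e : Γ →* Multiplicative ℤ) (he_t : e t = Multiplicative.ofAdd 1)
    (he_i : ∀ x, e (iota x) = 1) (hrel : ∀ x, t⁻¹ * iota x * t = iota (phi x))
    (hgen : Subgroup.closure ({t} ∪ Set.range iota) = ⊤) (M : ℕ) (hM : 100 < M) :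
    ∃ (Y : Type) (_ : MeasurableSpace Y) (_ : StandardBorelSpace Y) (ν : Measure Y)
      (_ : IsProbabilityMeasure ν) (_ : MulAction Γ Y),
      IsFreePMPAction Γ Y ν ∧ actionCost Γ Y ν ≤ 1 + 99 / (M : ENNReal) := by
  have hpos : 0 < (d + 1) * M := by positivity
  obtain ⟨Y, i1, i2, ν, i3, i4, h1, h2⟩ :=
    y_side iota t phi e he_t he_i hrel hgen ((d + 1) * M) hpos
  refine ⟨Y, i1, i2, ν, i3, i4, h1, h2.trans (add_le_add le_rfl ?_)⟩
  have hM0 : (M : ENNReal) ≠ 0 := by
    have : M ≠ 0 := by omega
    exact_mod_cast this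
  have hMt : (M : ENNReal) ≠ ⊤ := ENNReal.natCast_ne_top M
  have hd0 : ((d : ENNReal) + 1) ≠ 0 := by simp
  have hdt : ((d : ENNReal) + 1) ≠ ⊤ := by simp
  push_cast
  rw [ENNReal.div_le_iff (by simp [hM0]) (ENNReal.mul_ne_top hdt hMt)]
  calc (d : ENNReal) ≤ 99 * (d + 1) := by
        calc (d : ENNReal) ≤ d + 1 := le_self_add
          _ = 1 * (d + 1) := by ring
          _ ≤ 99 * (d + 1) := by gcongr; norm_num
    _ = 99 / M * ((d + 1) * M) := by
        rw [div_eq_mul_inv]
        calc (99 : ENNReal) * (d + 1) = 99 * (d + 1) * 1 := by ring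
          _ = 99 * (d + 1) * ((M : ENNReal)⁻¹ * M) := by
              rw [ENNReal.inv_mul_cancel hM0 hMt]
          _ = 99 * (M : ENNReal)⁻¹ * ((d + 1) * M) := by ring

end Crest.Agent.NoFixedPrice
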